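import Vale.Agent.P106.R.E.Defs
import Vale.Agent.P106.W.Split

/-! # P106 / R / E5 : densities in wide conformal boxes (helper327)

`Dens.cov327` : a set of planks whose rays satisfy the inequalities of a conformal box with widths and frame multiplied by `M`
(no admissibility: `|κ| u2 ≤ M`, `|α| u2 ≤ M`, `|κ| H ≤ M u1`, `|α| H ≤ M u1`) has at most `C M^21 lam vol` elements. -/

set_option autoImplicit false

namespace Vale.Agent.P106.R.E

open Finset Vale.Agent.P106.R.C2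
open Vale.Agent.P106.W (Cbx)

/-- the ray `(y, a, z)` is in the box `B`, widths multiplied by `M` -/
structure Wd (B : Cbx) (M H : ℝ) (y a : Fin 2 → ℝ) (z : ℝ) : Prop where
  hy : ∀ k, |y k - B.p k| ≤ M * B.u2
  ha : ∀ k, |a k - B.v k| ≤ M * B.u2
  hz : |B.zz y a z| ≤ M * max (B.u2 ^ 2) H
  h0 : |B.g0 y a z| ≤ M * B.u1
  h1 : |B.g1 y a z| ≤ M * B.u1

theorem Wd.mono {B : Cbx} {M M' H : ℝ} {y a : Fin 2 → ℝ} {z : ℝ} (h : Wd B M H y a z) (hM : M ≤ M') (h1 : 0 ≤ B.u1)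
    (h2 : 0 ≤ B.u2) : Wd B M' H y a z := by
  have hm : 0 ≤ max (B.u2 ^ 2) H := le_max_of_le_left (by positivity)
  refine ⟨fun k => (h.hy k).trans ?_, fun k => (h.ha k).trans ?_, h.hz.trans ?_, h.h0.trans ?_, h.h1.trans ?_⟩ <;> gcongr

/-- the cell of a ray -/
noncomputable def key327 (B : Cbx) (D : ℕ) (H : ℝ) (y q : Fin 2 → ℝ) (z : ℝ) : (Fin 2 → ℤ) × (Fin 2 → ℤ) × ℤ :=
  (fun k => ⌊((1024 * D ^ 4 : ℕ) : ℝ) * (y k - B.p k) / (D * B.u2)⌋,
    fun k => ⌊((1024 * D ^ 4 : ℕ) : ℝ) * (q k - B.v k) / (D * B.u2)⌋,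
    ⌊((512 * D ^ 3 : ℕ) : ℝ) * B.zz y q z / (D * max (B.u2 ^ 2) H)⌋)

/-- the values of `key327` -/
noncomputable def keys327 (D : ℕ) : Finset ((Fin 2 → ℤ) × (Fin 2 → ℤ) × ℤ) :=
  (Fintype.piFinset fun _ => Finset.Icc (-((1024 * D ^ 4 : ℕ) : ℤ)) ((1024 * D ^ 4 : ℕ) : ℤ)) ×ˢ
    (Fintype.piFinset fun _ => Finset.Icc (-((1024 * D ^ 4 : ℕ) : ℤ)) ((1024 * D ^ 4 : ℕ) : ℤ)) ×ˢ
      Finset.Icc (-((512 * D ^ 3 : ℕ) : ℤ)) ((512 * D ^ 3 : ℕ) : ℤ)

theorem card_Icc327 {m : ℕ} (hm : 1 ≤ m) : (Finset.Icc (-(m : ℤ)) (m : ℤ)).card ≤ 3 * m := by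
  rw [Int.card_Icc]
  omega

theorem card_keys327 {D : ℕ} (hD : 1 ≤ D) :
    (keys327 D).card ≤ (3 * (1024 * D ^ 4)) ^ 2 * ((3 * (1024 * D ^ 4)) ^ 2 * (3 * (512 * D ^ 3))) := by
  unfold keys327
  rw [card_product, card_product, Fintype.card_piFinset]
  simp only [prod_const, card_univ, Fintype.card_fin]
  have h1 : 1 ≤ 1024 * D ^ 4 := Nat.one_le_iff_ne_zero.2 (by positivity)
  have h2 : 1 ≤ 512 * D ^ 3 := Nat.one_le_iff_ne_zero.2 (by positivity)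
  exact Nat.mul_le_mul (Nat.pow_le_pow_left (card_Icc327 h1) 2)
    (Nat.mul_le_mul (Nat.pow_le_pow_left (card_Icc327 h1) 2) (card_Icc327 h2))

theorem key_mem327 {B : Cbx} {D : ℕ} {H : ℝ} {y q : Fin 2 → ℝ} {z : ℝ} (hD : 1 ≤ D) (h2 : 0 < B.u2)
    (h : Wd B D H y q z) : key327 B D H y q z ∈ keys327 D := by
  have hM : 0 < max (B.u2 ^ 2) H := lt_max_of_lt_left (by positivity)
  have hD0 : (0:ℝ) < D := by exact_mod_cast hD
  unfold keys327 key327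
  simp only [Finset.mem_product, Fintype.mem_piFinset]
  exact ⟨fun k => W.floor_mem (by positivity) (h.hy k), fun k => W.floor_mem (by positivity) (h.ha k),
    W.floor_mem (by positivity) h.hz⟩

section cell

variable {B : Cbx} {r H : ℝ} {D : ℕ} {p' v' : Fin 2 → ℝ} {ω' : ℝ}

/-- distances inside a cell -/
theorem key_near327 (hD : 1 ≤ D) (hu2 : 0 < B.u2) (hin : Wd B D H p' v' ω') {y q : Fin 2 → ℝ} {z : ℝ}
    (hk : key327 B D H y q z = key327 B D H p' v' ω') :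
    (∀ k, |y k - p' k| ≤ B.u2 / (1024 * D ^ 3)) ∧ (∀ k, |q k - v' k| ≤ B.u2 / (1024 * D ^ 3)) ∧
      |z + ∑ k, y k * (q k - v' k) - ω'| ≤ max (B.u2 ^ 2) H / (256 * D ^ 2) := by
  have hM : 0 < max (B.u2 ^ 2) H := lt_max_of_lt_left (by positivity)
  have hD0 : (0 : ℝ) < D := by exact_mod_cast hD
  unfold key327 at hk
  simp only [Prod.mk.injEq] at hk
  obtain ⟨k1, k2, k3⟩ := hk
  have e1 : (D:ℝ) * B.u2 / ((1024 * D ^ 4 : ℕ) : ℝ) = B.u2 / (1024 * D ^ 3) := by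
    push_cast; field_simp
  have e2 : (D:ℝ) * max (B.u2 ^ 2) H / ((512 * D ^ 3 : ℕ) : ℝ) = max (B.u2 ^ 2) H / (512 * D ^ 2) := by
    push_cast; field_simp
  have c1 : ∀ k, |y k - p' k| ≤ B.u2 / (1024 * D ^ 3) := fun k => by
    have := W.floor_close (by positivity) (by positivity) (congrFun k1 k)
    rwa [sub_sub_sub_cancel_right, e1] at this
  have c2 : ∀ k, |q k - v' k| ≤ B.u2 / (1024 * D ^ 3) := fun k => by
    have := W.floor_close (by positivity) (by positivity) (congrFun k2 k)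
    rwa [sub_sub_sub_cancel_right, e1] at this
  refine ⟨c1, c2, ?_⟩
  have c3 := W.floor_close (by positivity) (by positivity) k3
  rw [e2] at c3
  have c4 : |∑ k, (y k - p' k) * (v' k - B.v k)| ≤ max (B.u2 ^ 2) H / (512 * D ^ 2) := by
    rw [Fin.sum_univ_two]
    have a0 : ∀ k, |(y k - p' k) * (v' k - B.v k)| ≤ B.u2 ^ 2 / (1024 * D ^ 2) := fun k => by
      rw [abs_mul]
      calc |y k - p' k| * |v' k - B.v k| ≤ B.u2 / (1024 * D ^ 3) * (D * B.u2) :=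
            mul_le_mul (c1 k) (hin.ha k) (abs_nonneg _) (by positivity)
        _ = B.u2 ^ 2 / (1024 * D ^ 2) := by field_simp
    calc |(y 0 - p' 0) * (v' 0 - B.v 0) + (y 1 - p' 1) * (v' 1 - B.v 1)|
        ≤ B.u2 ^ 2 / (1024 * D ^ 2) + B.u2 ^ 2 / (1024 * D ^ 2) := (abs_add_le _ _).trans (add_le_add (a0 0) (a0 1))
      _ = B.u2 ^ 2 / (512 * D ^ 2) := by field_simp; ring
      _ ≤ max (B.u2 ^ 2) H / (512 * D ^ 2) := div_le_div_of_nonneg_right (le_max_left _ _) (by positivity)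
  rw [B.zz_rec p' v' y q ω' z]
  calc |B.zz y q z - B.zz p' v' ω' - ∑ k, (y k - p' k) * (v' k - B.v k)|
      ≤ |B.zz y q z - B.zz p' v' ω'| + |∑ k, (y k - p' k) * (v' k - B.v k)| := abs_sub _ _
    _ ≤ max (B.u2 ^ 2) H / (512 * D ^ 2) + max (B.u2 ^ 2) H / (512 * D ^ 2) := add_le_add c3 c4
    _ = max (B.u2 ^ 2) H / (256 * D ^ 2) := by field_simp; ring

/-- frame at another ray of a thin slab -/
theorem frame327 (hD : 1 ≤ D) (hu1 : 0 < B.u1) (hα : |B.α| * B.u2 ≤ D) (hκ : |B.κ| * B.u2 ≤ D)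
    (hcase : 48 * (D:ℝ) ^ 2 * B.u1 ≤ B.u2) (h0 : |B.g0 p' v' ω'| ≤ D * B.u1) (h1 : |B.g1 p' v' ω'| ≤ D * B.u1) :
    ∃ L θ' : ℝ, 2 / 3 ≤ L ∧ B.nn p' v' 0 = -(L * Real.sin θ') ∧ B.nn p' v' 1 = L * Real.cos θ' := by
  have hD0 : (0 : ℝ) < D := by exact_mod_cast hD
  have hk : ∀ x : ℝ, 0 ≤ x → x * B.u2 ≤ D → x * B.u1 ≤ 1 / (48 * D) := by
    intro x hx0 hx
    rw [le_div_iff₀ (by positivity)]
    have h3 : x * (48 * (D:ℝ) ^ 2 * B.u1) ≤ D := (mul_le_mul_of_nonneg_left hcase hx0).trans hx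
    have h4 : (D:ℝ) * (x * B.u1 * (48 * D)) ≤ D * 1 := by linarith
    exact le_of_mul_le_mul_left h4 hD0
  have hκ' := hk _ (abs_nonneg _) hκ
  have hα' := hk _ (abs_nonneg _) hα
  have g1b : |2 * B.κ * B.g1 p' v' ω'| ≤ 1 / 24 := by
    rw [abs_mul, abs_mul, abs_two]
    calc 2 * |B.κ| * |B.g1 p' v' ω'| ≤ 2 * |B.κ| * (D * B.u1) := by gcongr
      _ = 2 * D * (|B.κ| * B.u1) := by ring
      _ ≤ 2 * D * (1 / (48 * D)) := by gcongr
      _ = 1 / 24 := by field_simp; norm_num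
  have g0b : |4 * B.α * B.g0 p' v' ω'| ≤ 1 / 12 := by
    rw [abs_mul, abs_mul, abs_of_pos (by norm_num : (0:ℝ) < 4)]
    calc 4 * |B.α| * |B.g0 p' v' ω'| ≤ 4 * |B.α| * (D * B.u1) := by gcongr
      _ = 4 * D * (|B.α| * B.u1) := by ring
      _ ≤ 4 * D * (1 / (48 * D)) := by gcongr
      _ = 1 / 12 := by field_simp; norm_num
  have hsq := B.nn_sq p' v' ω'
  set X := B.nn p' v' 0 ^ 2 + B.nn p' v' 1 ^ 2 with hX
  rw [abs_le] at g1b g0b
  have hlow : (2 / 3 : ℝ) ^ 2 ≤ X := by rw [hsq]; linarith [g1b.1, g0b.2]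
  have hX0 : 0 < X := lt_of_lt_of_le (by norm_num) hlow
  have hL0 : 0 < Real.sqrt X := Real.sqrt_pos.2 hX0
  have hLs : Real.sqrt X ^ 2 = X := Real.sq_sqrt hX0.le
  obtain ⟨θ', hc', hs'⟩ := W.exists_angle (x := B.nn p' v' 1 / Real.sqrt X) (y := -(B.nn p' v' 0) / Real.sqrt X) (by
    rw [div_pow, div_pow, hLs, ← add_div, div_eq_one_iff_eq hX0.ne', hX]; ring)
  refine ⟨Real.sqrt X, θ', Real.le_sqrt_of_sq_le hlow, ?_, ?_⟩
  · rw [hs']; field_simp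
  · rw [hc']; field_simp

theorem inv327 {L : ℝ} (hL : 2 / 3 ≤ L) {x : ℝ} (hx : 0 ≤ x) : x / L ≤ 3 / 2 * x := by
  have hL0 : 0 < L := by linarith
  rw [div_le_iff₀ hL0]
  nlinarith

/-- the frame of the new box is admissible -/
theorem thin_ok327 (hD : 1 ≤ D) (hr1 : r ≤ B.u1) (hr : 0 < r) (hH : 0 < H) (h12 : B.u1 ≤ B.u2) (h2 : B.u2 ≤ 1)
    (hα : |B.α| * B.u2 ≤ D) (hκ : |B.κ| * B.u2 ≤ D) (hαH : |B.α| * H ≤ D * B.u1) (hκH : |B.κ| * H ≤ D * B.u1)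
    (hcase : 48 * (D:ℝ) ^ 2 * B.u1 ≤ B.u2) {L : ℝ} (hL : 2 / 3 ≤ L) (θ' : ℝ) :
    (⟨θ', 3 * D * B.u1, B.u2 / (16 * D), B.κ / L, B.α / L, p', v', ω'⟩ : Cbx).ok (1 / 8) r H := by
  have hu1 : 0 < B.u1 := lt_of_lt_of_le hr hr1
  have hu2 : 0 < B.u2 := lt_of_lt_of_le hu1 h12
  have hD0 : (0 : ℝ) < D := by exact_mod_cast hD
  have hD1 : (1 : ℝ) ≤ D := by exact_mod_cast hD
  have hL0 : 0 < L := by linarith
  have k1 : ∀ x : ℝ, |x| * B.u2 ≤ D → |x / L| * (B.u2 / (16 * D)) ≤ 1 / 8 := by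
    intro x hx
    rw [abs_div, abs_of_pos hL0]
    calc |x| / L * (B.u2 / (16 * D)) ≤ 3 / 2 * |x| * (B.u2 / (16 * D)) := by
          gcongr; exact inv327 hL (abs_nonneg _)
      _ = 3 / 32 * (|x| * B.u2) / D := by field_simp; ring
      _ ≤ 3 / 32 * D / D := by gcongr
      _ ≤ 1 / 8 := by rw [mul_div_assoc, div_self hD0.ne']; norm_num
  have k2 : ∀ x : ℝ, |x| * H ≤ D * B.u1 → |x / L| * H ≤ 3 * D * B.u1 := by
    intro x hx
    rw [abs_div, abs_of_pos hL0]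
    have h3 : 0 ≤ D * B.u1 := by positivity
    calc |x| / L * H ≤ 3 / 2 * |x| * H := by gcongr; exact inv327 hL (abs_nonneg _)
      _ = 3 / 2 * (|x| * H) := by ring
      _ ≤ 3 / 2 * (D * B.u1) := by gcongr
      _ ≤ 3 * D * B.u1 := by linarith
  refine ⟨?_, ?_, ?_, k1 _ hα, k1 _ hκ, k2 _ hαH, k2 _ hκH⟩
  · show r ≤ 3 * D * B.u1
    nlinarith
  · show 3 * D * B.u1 ≤ B.u2 / (16 * D)
    rw [le_div_iff₀ (by positivity)]
    linarith
  · show B.u2 / (16 * D) ≤ 1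
    rw [div_le_one (by positivity)]
    linarith

theorem thin_vol327 (hD : 1 ≤ D) (hu1 : 0 < B.u1) (hu2 : 0 < B.u2) (hr : 0 < r) (hH : 0 < H) (θ' κ' α' : ℝ) :
    (⟨θ', 3 * D * B.u1, B.u2 / (16 * D), κ', α', p', v', ω'⟩ : Cbx).vol r H ≤ 48 * (D:ℝ) ^ 2 * B.vol r H := by
  have hD0 : (0 : ℝ) < D := by exact_mod_cast hD
  have hD1 : (1 : ℝ) ≤ D := by exact_mod_cast hD
  show 3 * D * B.u1 * (B.u2 / (16 * D)) / r ^ 2 * max 1 ((B.u2 / (16 * D)) ^ 2 / H) ≤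
    48 * (D:ℝ) ^ 2 * (B.u1 * B.u2 / r ^ 2 * max 1 (B.u2 ^ 2 / H))
  have e3 : 3 * D * B.u1 * (B.u2 / (16 * D)) = 3 / 16 * (B.u1 * B.u2) := by field_simp
  have hle : B.u2 / (16 * D) ≤ B.u2 := div_le_self hu2.le (by linarith)
  have h3 : (B.u2 / (16 * D)) ^ 2 ≤ B.u2 ^ 2 := pow_le_pow_left₀ (by positivity) hle 2
  rw [e3]
  have hQ : 0 ≤ B.u1 * B.u2 / r ^ 2 * max 1 (B.u2 ^ 2 / H) := by positivity
  calc 3 / 16 * (B.u1 * B.u2) / r ^ 2 * max 1 ((B.u2 / (16 * D)) ^ 2 / H) ≤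
        3 / 16 * (B.u1 * B.u2) / r ^ 2 * max 1 (B.u2 ^ 2 / H) := by gcongr
    _ = 3 / 16 * (B.u1 * B.u2 / r ^ 2 * max 1 (B.u2 ^ 2 / H)) := by ring
    _ ≤ 48 * (D:ℝ) ^ 2 * (B.u1 * B.u2 / r ^ 2 * max 1 (B.u2 ^ 2 / H)) := by
        refine mul_le_mul_of_nonneg_right ?_ hQ
        nlinarith

theorem thin_in327 (hD : 1 ≤ D) (hu1 : 0 < B.u1) (hu2 : 0 < B.u2) (hH : 0 < H) {L θ' : ℝ} (hL : 2 / 3 ≤ L)
    (n0 : B.nn p' v' 0 = -(L * Real.sin θ')) (n1 : B.nn p' v' 1 = L * Real.cos θ') (hin : Wd B D H p' v' ω')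
    {y q : Fin 2 → ℝ} {z : ℝ} (hyq : Wd B D H y q z) (hk : key327 B D H y q z = key327 B D H p' v' ω') :
    (⟨θ', 3 * D * B.u1, B.u2 / (16 * D), B.κ / L, B.α / L, p', v', ω'⟩ : Cbx).In H y q z := by
  have hM : 0 < max (B.u2 ^ 2) H := lt_max_of_lt_left (by positivity)
  have hD0 : (0 : ℝ) < D := by exact_mod_cast hD
  have hD1 : (1 : ℝ) ≤ D := by exact_mod_cast hD
  have hL0 : 0 < L := by linarith
  obtain ⟨c1, c2, c3⟩ := key_near327 hD hu2 hin hk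
  have hD3 : (1:ℝ) * D ≤ D ^ 3 := by
    have : (1:ℝ) ≤ D ^ 2 := one_le_pow₀ hD1
    nlinarith
  have hw : B.u2 / (1024 * D ^ 3) ≤ B.u2 / (16 * D) := by
    apply div_le_div_of_nonneg_left hu2.le (by positivity)
    linarith
  have hmax : max (B.u2 ^ 2) H / (256 * D ^ 2) ≤ max ((B.u2 / (16 * D)) ^ 2) H := by
    rw [div_le_iff₀ (by positivity)]
    refine max_le ?_ ?_
    · have : B.u2 ^ 2 = (B.u2 / (16 * D)) ^ 2 * (256 * D ^ 2) := by field_simp; norm_num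
      calc B.u2 ^ 2 = (B.u2 / (16 * D)) ^ 2 * (256 * D ^ 2) := this
        _ ≤ _ := mul_le_mul_of_nonneg_right (le_max_left _ _) (by positivity)
    · calc H = H * 1 := (mul_one H).symm
        _ ≤ max ((B.u2 / (16 * D)) ^ 2) H * (256 * D ^ 2) :=
          mul_le_mul (le_max_right _ _) (by nlinarith) zero_le_one (le_trans hH.le (le_max_right _ _))
  have hfin : ∀ a b : ℝ, |a| ≤ D * B.u1 → |b| ≤ D * B.u1 → |(a - b) / L| ≤ 3 * D * B.u1 := by
    intro a b ha hb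
    rw [abs_div, abs_of_pos hL0]
    calc |a - b| / L ≤ 3 / 2 * |a - b| := inv327 hL (abs_nonneg _)
      _ ≤ 3 / 2 * (D * B.u1 + D * B.u1) := by
          gcongr; exact (abs_sub a b).trans (add_le_add ha hb)
      _ = 3 * D * B.u1 := by ring
  refine ⟨fun k => (c1 k).trans hw, fun k => (c2 k).trans hw, c3.trans hmax, ?_, ?_⟩
  · have e : fn θ' (y - p') + B.κ / L * (z + ∑ k, y k * (q k - v' k) - ω') - B.α / L * ∑ k, (y k - p' k) ^ 2 =
        (B.g0 y q z - B.g0 p' v' ω') / L := by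
      rw [B.g0_rec p' v' y q ω' z, eq_div_iff hL0.ne']
      simp only [Fin.sum_univ_two, n0, n1, fn, Pi.sub_apply]
      field_simp
      ring
    show |fn θ' (y - p') + B.κ / L * (z + ∑ k, y k * (q k - v' k) - ω') - B.α / L * ∑ k, (y k - p' k) ^ 2| ≤
      3 * D * B.u1
    rw [e]
    exact hfin _ _ hyq.h0 hin.h0
  · have e : fn θ' (q - v') + B.κ / L * (∑ k, (q k - v' k) ^ 2) / 2 +
        2 * (B.α / L) * (z + ∑ k, p' k * (q k - v' k) - ω') = (B.g1 y q z - B.g1 p' v' ω') / L := by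
      rw [B.g1_rec p' v' y q ω' z, eq_div_iff hL0.ne']
      simp only [Fin.sum_univ_two, n0, n1, fn, Pi.sub_apply]
      field_simp
      ring
    show |fn θ' (q - v') + B.κ / L * (∑ k, (q k - v' k) ^ 2) / 2 +
        2 * (B.α / L) * (z + ∑ k, p' k * (q k - v' k) - ω')| ≤ 3 * D * B.u1
    rw [e]
    exact hfin _ _ hyq.h1 hin.h1

/-- the rays of a cell are in one admissible box -/
theorem cov_box327 (hr : 0 < r) (hH : 0 < H) (hD : 1 ≤ D) (hr1 : r ≤ B.u1)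
    (h12 : B.u1 ≤ B.u2) (h2 : B.u2 ≤ 1) (hα : |B.α| * B.u2 ≤ D) (hκ : |B.κ| * B.u2 ≤ D)
    (hαH : |B.α| * H ≤ D * B.u1) (hκH : |B.κ| * H ≤ D * B.u1) (hin : Wd B D H p' v' ω') :
    ∃ B' : Cbx, B'.ok (1 / 8) r H ∧ B'.vol r H ≤ 48 * (D:ℝ) ^ 2 * B.vol r H ∧ ∀ (y q : Fin 2 → ℝ) (z : ℝ),
      Wd B D H y q z → key327 B D H y q z = key327 B D H p' v' ω' → B'.In H y q z := by
  have hu1 : 0 < B.u1 := lt_of_lt_of_le hr hr1
  have hu2 : 0 < B.u2 := lt_of_lt_of_le hu1 h12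
  have hM : 0 < max (B.u2 ^ 2) H := lt_max_of_lt_left (by positivity)
  have hD0 : (0 : ℝ) < D := by exact_mod_cast hD
  have hD1 : (1 : ℝ) ≤ D := by exact_mod_cast hD
  by_cases hcase : 48 * (D:ℝ) ^ 2 * B.u1 ≤ B.u2
  · -- the slab is thin
    obtain ⟨L, θ', hL, n0, n1⟩ := frame327 hD hu1 hα hκ hcase hin.h0 hin.h1
    exact ⟨_, thin_ok327 hD hr1 hr hH h12 h2 hα hκ hαH hκH hcase hL θ', thin_vol327 hD hu1 hu2 hr hH _ _ _,
      fun y q z hyq hk => thin_in327 hD hu1 hu2 hH hL n0 n1 hin hyq hk⟩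
  · -- a ball
    push Not at hcase
    refine ⟨⟨0, B.u2, B.u2, 0, 0, p', v', ω'⟩, ⟨hr1.trans h12, le_rfl, h2, ?_, ?_, ?_, ?_⟩, ?_, ?_⟩
    · show |(0 : ℝ)| * B.u2 ≤ 1 / 8
      rw [abs_zero, zero_mul]; positivity
    · show |(0 : ℝ)| * B.u2 ≤ 1 / 8
      rw [abs_zero, zero_mul]; positivity
    · show |(0 : ℝ)| * H ≤ B.u2
      rw [abs_zero, zero_mul]; exact hu2.le
    · show |(0 : ℝ)| * H ≤ B.u2
      rw [abs_zero, zero_mul]; exact hu2.le
    · show B.u2 * B.u2 / r ^ 2 * max 1 (B.u2 ^ 2 / H) ≤ 48 * (D:ℝ) ^ 2 * (B.u1 * B.u2 / r ^ 2 * max 1 (B.u2 ^ 2 / H))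
      have hQ : 0 ≤ B.u2 / r ^ 2 * max 1 (B.u2 ^ 2 / H) := by positivity
      calc B.u2 * B.u2 / r ^ 2 * max 1 (B.u2 ^ 2 / H) = B.u2 * (B.u2 / r ^ 2 * max 1 (B.u2 ^ 2 / H)) := by ring
        _ ≤ 48 * (D:ℝ) ^ 2 * B.u1 * (B.u2 / r ^ 2 * max 1 (B.u2 ^ 2 / H)) := mul_le_mul_of_nonneg_right hcase.le hQ
        _ = _ := by ring
    · intro y q z hyq hk
      obtain ⟨c1, c2, c3⟩ := key_near327 hD hu2 hin hk
      have hw : B.u2 / (1024 * D ^ 3) ≤ B.u2 := by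
        apply div_le_self hu2.le
        nlinarith [one_le_pow₀ hD1 (n := 3)]
      have hmax : max (B.u2 ^ 2) H / (256 * D ^ 2) ≤ max (B.u2 ^ 2) H := by
        apply div_le_self hM.le
        nlinarith [one_le_pow₀ hD1 (n := 2)]
      refine ⟨fun k => (c1 k).trans hw, fun k => (c2 k).trans hw, c3.trans hmax, ?_, ?_⟩
      · show |fn 0 (y - p') + 0 * (z + ∑ k, y k * (q k - v' k) - ω') - 0 * ∑ k, (y k - p' k) ^ 2| ≤ B.u2
        have e : fn 0 (y - p') + 0 * (z + ∑ k, y k * (q k - v' k) - ω') - 0 * ∑ k, (y k - p' k) ^ 2 = y 1 - p' 1 := by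
          simp [fn]
        rw [e]
        exact (c1 1).trans hw
      · show |fn 0 (q - v') + 0 * (∑ k, (q k - v' k) ^ 2) / 2 +
            2 * 0 * (z + ∑ k, p' k * (q k - v' k) - ω')| ≤ B.u2
        have e : fn 0 (q - v') + 0 * (∑ k, (q k - v' k) ^ 2) / 2 +
            2 * 0 * (z + ∑ k, p' k * (q k - v' k) - ω') = q 1 - v' 1 := by
          simp [fn]
        rw [e]
        exact (c2 1).trans hw

end cell

/-- constant of `Dens.cov327` -/
noncomputable def cc327 : ℝ := (3 * 1024) ^ 4 * (3 * 512) * 48 * 2 ^ 21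

/-- **densities in wide boxes** -/
theorem Dens.cov327 {s : Sl} {n c : ℕ} {D : Set Nd} {lam : ℝ} (h : Dens s n c D lam) (B : Cbx) {M : ℝ} (hM : 1 ≤ M)
    (T : ℤ) (U : Finset Nd) (h1 : (1 / 2 : ℝ) ^ (c * n) ≤ B.u1) (h12 : B.u1 ≤ B.u2) (h2 : B.u2 ≤ 1)
    (hα : |B.α| * B.u2 ≤ M) (hκ : |B.κ| * B.u2 ≤ M)
    (hαH : |B.α| * W.hh n s.h c ≤ M * B.u1) (hκH : |B.κ| * W.hh n s.h c ≤ M * B.u1)
    (hU : ∀ S ∈ U, S ∈ D ∧ S.T = T ∧ Wd B M (W.hh n s.h c) (py n c S) (s c S.τ) (pz s n c S)) :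
    (U.card : ℝ) ≤ cc327 * M ^ 21 * (lam * bvol s n c B) := by
  classical
  set r : ℝ := (1 / 2 : ℝ) ^ (c * n) with hr
  have hr0 : 0 < r := by positivity
  set H : ℝ := W.hh n s.h c with hH
  have hH0 : 0 < H := by rw [hH]; unfold W.hh; positivity
  have hu1 : 0 < B.u1 := lt_of_lt_of_le hr0 h1
  have hu2 : 0 < B.u2 := lt_of_lt_of_le hu1 h12
  set N : ℕ := ⌈M⌉₊ with hN
  have hMN : M ≤ N := Nat.le_ceil M
  have hN1 : 1 ≤ N := by
    have : (1:ℝ) ≤ N := hM.trans hMN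
    exact_mod_cast this
  have hN0 : (0:ℝ) < N := by exact_mod_cast hN1
  have hNM : (N:ℝ) ≤ 2 * M := by
    have := Nat.ceil_lt_add_one (show 0 ≤ M by linarith)
    rw [← hN] at this
    linarith
  have hr' : (2:ℝ) ^ (c * n) / 2 ^ (2 * c * n) = r := by
    rw [hr, one_div, inv_pow, div_eq_iff (by positivity), show 2 * c * n = c * n + c * n by ring, pow_add]
    field_simp
  have hok : ∀ B' : Cbx, B'.ok (1 / 8) r H → Okb s n c c B' := by
    intro B' hB'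
    unfold Okb
    rw [hr']
    exact hB'
  have hW : ∀ S ∈ U, Wd B N H (py n c S) (s c S.τ) (pz s n c S) := fun S hS =>
    (hU S hS).2.2.mono hMN hu1.le hu2.le
  have hvol0 : 0 ≤ B.vol r H := W.Cbx.vol_nonneg B r H hu1.le hu2.le
  rcases U.eq_empty_or_nonempty with rfl | ⟨S1, hS1⟩
  · simp only [card_empty, Nat.cast_zero]
    -- `lam * vol` is nonnegative
    have hl : 0 ≤ lam := by
      have hb : (⟨0, 1, 1, 0, 0, 0, 0, 0⟩ : Cbx).ok (1 / 8) r H := by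
        refine ⟨pow_le_one₀ (by norm_num) (by norm_num), le_rfl, le_rfl, ?_, ?_, ?_, ?_⟩ <;> simp
      have h3 := h ⟨0, 1, 1, 0, 0, 0, 0, 0⟩ T ∅ (hok _ hb) (by simp)
      simp only [card_empty, Nat.cast_zero] at h3
      have h4 : 0 < bvol s n c ⟨0, 1, 1, 0, 0, 0, 0, 0⟩ := by
        show (0:ℝ) < 1 * 1 / r ^ 2 * max 1 (1 ^ 2 / H)
        positivity
      by_contra hcon
      push Not at hcon
      have := mul_neg_of_neg_of_pos hcon h4
      linarith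
    have : 0 ≤ bvol s n c B := hvol0
    have : (0:ℝ) ≤ cc327 := by unfold cc327; positivity
    positivity
  · have hlam : 0 ≤ lam * (48 * (N:ℝ) ^ 2 * B.vol r H) ∧ ∀ b ∈ keys327 N,
        ((U.filter fun S => key327 B N H (py n c S) (s c S.τ) (pz s n c S) = b).card : ℝ) ≤
          lam * (48 * (N:ℝ) ^ 2 * B.vol r H) := by
      have hcell : ∀ S0 ∈ U, ((U.filter fun S => key327 B N H (py n c S) (s c S.τ) (pz s n c S) =
          key327 B N H (py n c S0) (s c S0.τ) (pz s n c S0)).card : ℝ) ≤ lam * (48 * (N:ℝ) ^ 2 * B.vol r H) ∧ 0 ≤ lam := by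
        intro S0 hS0
        obtain ⟨B', hB', hv', hin⟩ := cov_box327 hr0 hH0 hN1 h1 h12 h2 (hα.trans hMN) (hκ.trans hMN)
          (hαH.trans (by gcongr)) (hκH.trans (by gcongr)) (hW S0 hS0)
        have h3 := h B' T (U.filter fun S => key327 B N H (py n c S) (s c S.τ) (pz s n c S) =
          key327 B N H (py n c S0) (s c S0.τ) (pz s n c S0)) (hok _ hB') (by
            intro S hS
            rw [mem_filter] at hS
            exact ⟨(hU S hS.1).1, (hU S hS.1).2.1, hin _ _ _ (hW S hS.1) hS.2⟩)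
        have h4 : 0 ≤ bvol s n c B' := W.Cbx.vol_nonneg B' r H ((hr0.trans_le hB'.r1).le)
          (((hr0.trans_le hB'.r1).trans_le hB'.u12).le)
        have hl : 0 ≤ lam := by
          by_contra hcon
          push Not at hcon
          have h5 : lam * bvol s n c B' ≤ 0 := mul_nonpos_of_nonpos_of_nonneg hcon.le h4
          have h6 : (0:ℝ) < ((U.filter fun S => key327 B N H (py n c S) (s c S.τ) (pz s n c S) =
            key327 B N H (py n c S0) (s c S0.τ) (pz s n c S0)).card : ℝ) := by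
            have h7 : S0 ∈ U.filter fun S => key327 B N H (py n c S) (s c S.τ) (pz s n c S) =
              key327 B N H (py n c S0) (s c S0.τ) (pz s n c S0) := mem_filter.2 ⟨hS0, rfl⟩
            exact_mod_cast card_pos.2 ⟨S0, h7⟩
          linarith
        exact ⟨h3.trans (mul_le_mul_of_nonneg_left hv' hl), hl⟩
      refine ⟨?_, ?_⟩
      · have := (hcell S1 hS1).2
        positivity
      · intro b _
        rcases (U.filter fun S => key327 B N H (py n c S) (s c S.τ) (pz s n c S) = b).eq_empty_or_nonempty with he | ⟨S0, hS0⟩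
        · rw [he, card_empty, Nat.cast_zero]
          have := (hcell S1 hS1).2
          positivity
        · rw [mem_filter] at hS0
          rw [← hS0.2]
          exact (hcell S0 hS0.1).1
    have hmap : ∀ S ∈ U, key327 B N H (py n c S) (s c S.τ) (pz s n c S) ∈ keys327 N :=
      fun S hS => key_mem327 hN1 hu2 (hW S hS)
    have hsum := card_eq_sum_card_fiberwise hmap
    have hlv : 0 ≤ lam * B.vol r H := by
      have h5 : (0:ℝ) < 48 * (N:ℝ) ^ 2 := by positivity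
      have h6 : lam * (48 * (N:ℝ) ^ 2 * B.vol r H) = 48 * (N:ℝ) ^ 2 * (lam * B.vol r H) := by ring
      rw [h6] at hlam
      exact nonneg_of_mul_nonneg_right hlam.1 h5
    calc (U.card : ℝ) = ∑ b ∈ keys327 N,
          ((U.filter fun S => key327 B N H (py n c S) (s c S.τ) (pz s n c S) = b).card : ℝ) := by
            rw [hsum]; push_cast; rfl
      _ ≤ ∑ _b ∈ keys327 N, lam * (48 * (N:ℝ) ^ 2 * B.vol r H) := sum_le_sum hlam.2
      _ = ((keys327 N).card : ℝ) * (lam * (48 * (N:ℝ) ^ 2 * B.vol r H)) := by rw [sum_const, nsmul_eq_mul]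
      _ ≤ (((3 * (1024 * N ^ 4)) ^ 2 * ((3 * (1024 * N ^ 4)) ^ 2 * (3 * (512 * N ^ 3))) : ℕ) : ℝ) *
          (lam * (48 * (N:ℝ) ^ 2 * B.vol r H)) := by
            refine mul_le_mul_of_nonneg_right ?_ hlam.1
            exact_mod_cast card_keys327 hN1
      _ = (3 * 1024) ^ 4 * (3 * 512) * 48 * (N:ℝ) ^ 21 * (lam * B.vol r H) := by push_cast; ring
      _ ≤ (3 * 1024) ^ 4 * (3 * 512) * 48 * (2 * M) ^ 21 * (lam * B.vol r H) := by gcongr
      _ = cc327 * M ^ 21 * (lam * bvol s n c B) := by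
            unfold cc327 bvol
            rw [mul_pow]
            ring

end Vale.Agent.P106.R.E
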