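import Vale.Agent.P106.R.H327.UpDn
import Vale.Agent.P106.R.H377.E5Asm

/-! # P106 / R / E5 : `E5 A 106` from `E1`, `E2` (helper327, helper377) -/

set_option autoImplicit false

namespace Vale.Agent.P106.R.E

theorem e5Up327 : H377.E5Up 100 := fun F i j e hK hij hj _ h => e5Up_327 F i j e hK hij hj h

theorem e5Dn327 : H377.E5Dn 100 := fun F i j e hK hij hj _ h => e5Dn_327 F i j e hK hij hj h

/-- **E5** -/
theorem e5_327 {A : ℝ} (hA : 0 ≤ A + 1) (hE1 : E1) (hE2 : E2) : E5 A 106 := by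
  have h : E5 A (max (100:ℝ) 1 + 6) := @H377.E5_of A 100 hA @hE1 @hE2 @e5Up327 @e5Dn327
  have e : max (100:ℝ) 1 + 6 = 106 := by norm_num
  rwa [e] at h

end Vale.Agent.P106.R.E
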