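import Vale.Agent.P106.R.E.Defs

/-!
# P106 / R / E5 : geometry of one flag (helper327; positions, times, caps: after helper535's P122 file)

`gp327` : the relation `Gp` between the planks of levels `i ≤ j` of one flag.
-/

set_option autoImplicit false

namespace Vale.Agent.P106.R.E

open Filter Topology Finset Vale.Agent.P127 Vale.Agent.P127.Stk Vale.Agent.P127.U Vale.Agent.P127.U.Sys
  Vale.Agent.P106.R.C2

namespace G327

variable {K : ℕ} (F : Flg K)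

theorem geo_kid {n : ℕ} {τ τ' : Z2} (h : τ' ∈ kids n τ) (k : Fin 2) :
    2 ^ n * τ k ≤ τ' k ∧ τ' k < 2 ^ n * (τ k + 1) := by
  unfold kids at h
  rw [Fintype.mem_piFinset] at h
  exact mem_Ico.1 (h k)

theorem geo_div {n : ℕ} {τ τ' : Z2} (h : τ' ∈ kids n τ) (k : Fin 2) : τ' k / 2 ^ n = τ k := by
  obtain ⟨h1, h2⟩ := geo_kid h k
  have h0 : (0 : ℤ) < 2 ^ n := by positivity
  refine le_antisymm ?_ ?_
  · have : τ' k / 2 ^ n < τ k + 1 := Int.ediv_lt_of_lt_mul h0 (by linarith)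
    omega
  · rw [Int.le_ediv_iff_mul_le h0]
    linarith

theorem geo_cap {i : ℕ} {ω : F.S.Ω i} (hω : 0 < (F.S.P i).w ω) {d : ℕ} (hd : d ≤ K) :
    Cap (F.n i) d (F.N d i ω).τ := by
  induction d with
  | zero =>
    intro k
    rw [(F.root i ω hω).1]
    simp
  | succ d ih =>
    intro k
    obtain ⟨h1, h2⟩ := geo_kid (F.step i ω hω d hd).1 k
    obtain ⟨h3, h4⟩ := ih (by omega) k
    have h0 : (0 : ℤ) < 2 ^ F.n i := by positivity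
    have e : ((2 : ℤ) ^ ((d + 1) * F.n i)) = 2 ^ F.n i * 2 ^ (d * F.n i) := by
      rw [← pow_add]; congr 1; ring
    rw [e]
    constructor
    · nlinarith
    · refine lt_of_lt_of_le h2 ?_
      exact mul_le_mul_of_nonneg_left (by omega) h0.le

theorem geo_T1 {i : ℕ} {ω : F.S.Ω i} (hω : 0 < (F.S.P i).w ω) {d : ℕ} (hd : d < K) :
    (F.N (d + 1) i ω).T = (F.N d i ω).T / 2 ^ (2 * F.n i) := by
  have h := (F.step i ω hω d hd).2
  have h1 := congrArg Nd.T h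
  exact h1

theorem geo_T {i : ℕ} {ω : F.S.Ω i} (hω : 0 < (F.S.P i).w ω) {c d : ℕ} (hcd : c ≤ d) (hd : d ≤ K) :
    (F.N c i ω).T / 2 ^ (2 * (d - c) * F.n i) = (F.N d i ω).T := by
  induction d, hcd using Nat.le_induction with
  | base => simp
  | succ d hcd ih =>
    rw [geo_T1 F hω hd, ← ih (by omega)]
    have e : 2 * (d + 1 - c) * F.n i = 2 * (d - c) * F.n i + 2 * F.n i := by
      have : d + 1 - c = (d - c) + 1 := by omega
      rw [this]; ring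
    rw [e, pow_add]
    exact (Int.ediv_ediv_of_nonneg (by positivity)).symm

theorem geo_τ {i : ℕ} {ω : F.S.Ω i} (hω : 0 < (F.S.P i).w ω) {c d : ℕ} (hcd : c ≤ d) (hd : d ≤ K) (k : Fin 2) :
    (F.N d i ω).τ k / 2 ^ ((d - c) * F.n i) = (F.N c i ω).τ k := by
  induction d, hcd using Nat.le_induction with
  | base => simp
  | succ d hcd ih =>
    rw [← ih (by omega), ← geo_div (F.step i ω hω d hd).1 k]
    have e : (d + 1 - c) * F.n i = F.n i + (d - c) * F.n i := by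
      have : d + 1 - c = (d - c) + 1 := by omega
      rw [this]; ring
    rw [e, pow_add]
    exact (Int.ediv_ediv_of_nonneg (by positivity)).symm

/-- time of the block -/
noncomputable def gt (i : ℕ) (ω : F.S.Ω i) (c : ℕ) : ℝ := ((F.N c i ω).T : ℝ) * 2 ^ (2 * c * F.n i)

theorem geo_mod (a : ℤ) (m : ℕ) : ((a % 2 ^ m : ℤ) : ℝ) = (a : ℝ) - 2 ^ m * ((a / 2 ^ m : ℤ) : ℝ) := by
  have h := Int.emod_add_mul_ediv a (2 ^ m)
  have h1 : ((a % 2 ^ m + 2 ^ m * (a / 2 ^ m) : ℤ) : ℝ) = a := by rw [h]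
  push_cast at h1
  linarith

theorem geo_t {i : ℕ} {ω : F.S.Ω i} (hω : 0 < (F.S.P i).w ω) {c d : ℕ} (hcd : c ≤ d) (hd : d ≤ K) :
    0 ≤ gt F i ω c - gt F i ω d ∧ gt F i ω c - gt F i ω d ≤ 2 ^ (2 * d * F.n i) := by
  obtain ⟨e, rfl⟩ := Nat.exists_eq_add_of_le hcd
  have h1 := geo_T F hω hcd hd
  rw [Nat.add_sub_cancel_left] at h1
  have h2 := geo_mod (F.N c i ω).T (2 * e * F.n i)
  rw [h1] at h2
  have h0 : (0 : ℤ) < 2 ^ (2 * e * F.n i) := by positivity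
  have h3 : (0 : ℝ) ≤ (((F.N c i ω).T % 2 ^ (2 * e * F.n i) : ℤ) : ℝ) := by
    exact_mod_cast Int.emod_nonneg _ h0.ne'
  have h4 : (((F.N c i ω).T % 2 ^ (2 * e * F.n i) : ℤ) : ℝ) ≤ 2 ^ (2 * e * F.n i) := by
    exact_mod_cast (Int.emod_lt_of_pos (F.N c i ω).T h0).le
  have e1 : (2 : ℝ) ^ (2 * (c + e) * F.n i) = 2 ^ (2 * e * F.n i) * 2 ^ (2 * c * F.n i) := by
    rw [← pow_add]; congr 1; ring
  have h5 : gt F i ω c - gt F i ω (c + e) =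
      (((F.N c i ω).T % 2 ^ (2 * e * F.n i) : ℤ) : ℝ) * 2 ^ (2 * c * F.n i) := by
    unfold gt
    rw [h2, e1]
    ring
  rw [h5, e1]
  exact ⟨by positivity, mul_le_mul_of_nonneg_right h4 (by positivity)⟩

theorem geo_slp1 {i : ℕ} {ω : F.S.Ω i} (hω : 0 < (F.S.P i).w ω) {d : ℕ} (hd : d < K) (k : Fin 2) :
    |F.s i (d + 1) (F.N (d + 1) i ω).τ k - F.s i d (F.N d i ω).τ k| ≤ |F.C| / 2 ^ (d * F.n i) := by
  have h1 := (F.slp i).nest d _ k hd (geo_cap F hω hd)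
  have h2 : par (F.n i) (F.N (d + 1) i ω).τ = (F.N d i ω).τ := by
    funext k
    exact geo_div (F.step i ω hω d hd).1 k
  rw [h2] at h1
  exact h1.trans (div_le_div_of_nonneg_right (le_abs_self _) (by positivity))

theorem geo_slp {i : ℕ} {ω : F.S.Ω i} (hω : 0 < (F.S.P i).w ω) {c d : ℕ} (hcd : c ≤ d) (hd : d ≤ K) (k : Fin 2) :
    |F.s i d (F.N d i ω).τ k - F.s i c (F.N c i ω).τ k| ≤ ((d : ℝ) - c) * |F.C| / 2 ^ (c * F.n i) := by
  induction d, hcd using Nat.le_induction with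
  | base => simp
  | succ d hcd ih =>
    have h1 := ih (by omega)
    have h2 := geo_slp1 F hω hd k
    have h3 : |F.C| / 2 ^ (d * F.n i) ≤ |F.C| / 2 ^ (c * F.n i) := by
      refine div_le_div_of_nonneg_left (abs_nonneg _) (by positivity) ?_
      exact pow_le_pow_right₀ (by norm_num) (Nat.mul_le_mul_right _ hcd)
    have h4 := abs_sub_le (F.s i (d + 1) (F.N (d + 1) i ω).τ k) (F.s i d (F.N d i ω).τ k) (F.s i c (F.N c i ω).τ k)
    have h5 : (((d + 1 : ℕ) : ℝ) - c) * |F.C| / 2 ^ (c * F.n i) =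
        |F.C| / 2 ^ (c * F.n i) + ((d : ℝ) - c) * |F.C| / 2 ^ (c * F.n i) := by
      push_cast; ring
    rw [h5]
    linarith

/-- the position of the tube of level `d` at the time of the block of level `c` -/
noncomputable def gp (i : ℕ) (ω : F.S.Ω i) (c d : ℕ) (k : Fin 2) : ℝ :=
  2 ^ (d * F.n i) * ((F.N d i ω).o k : ℝ) + (gt F i ω c - gt F i ω d) * F.s i d (F.N d i ω).τ k

theorem geo_pos1 {i : ℕ} {ω : F.S.Ω i} (hω : 0 < (F.S.P i).w ω) {c d : ℕ} (hcd : c ≤ d) (hd : d < K) (k : Fin 2) :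
    |gp F i ω c (d + 1) k - gp F i ω c d k| ≤ (|F.C| + 2) * 2 ^ ((d + 1) * F.n i) := by
  obtain ⟨t0, t1⟩ := geo_t F hω hcd hd.le
  have hs := geo_slp1 F hω hd k
  have hT := geo_T1 F hω hd
  -- the offset
  have ho : (F.N (d + 1) i ω).o k = ⌊(((F.N d i ω).o k / 2 ^ F.n i : ℤ) : ℝ) -
      (((F.N d i ω).T % 2 ^ (2 * F.n i) : ℤ) : ℝ) * 2 ^ (2 * d * F.n i) *
        F.s i (d + 1) (F.N (d + 1) i ω).τ k / 2 ^ ((d + 1) * F.n i)⌋ := by
    have h := (F.step i ω hω d hd).2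
    have h1 := congrFun (congrArg Nd.o h) k
    exact h1
  have hmod := geo_mod (F.N d i ω).T (2 * F.n i)
  rw [← hT] at hmod
  have hdiv := geo_mod ((F.N d i ω).o k) (F.n i)
  have hr0 : (0 : ℝ) ≤ (((F.N d i ω).o k % 2 ^ F.n i : ℤ) : ℝ) := by
    exact_mod_cast Int.emod_nonneg _ (by positivity)
  have hr1 : (((F.N d i ω).o k % 2 ^ F.n i : ℤ) : ℝ) ≤ 2 ^ F.n i := by
    exact_mod_cast (Int.emod_lt_of_pos ((F.N d i ω).o k) (by positivity : (0 : ℤ) < 2 ^ F.n i)).le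
  set q : ℤ := (F.N d i ω).o k / 2 ^ F.n i with hq
  set r : ℝ := (((F.N d i ω).o k % 2 ^ F.n i : ℤ) : ℝ) with hr
  set s' : ℝ := F.s i (d + 1) (F.N (d + 1) i ω).τ k with hs'
  set s0 : ℝ := F.s i d (F.N d i ω).τ k with hs0
  set A : ℝ := 2 ^ (d * F.n i) with hA
  set B : ℝ := 2 ^ ((d + 1) * F.n i) with hB
  have hA0 : 0 < A := by positivity
  have hB0 : 0 < B := by positivity
  have hAB : B = A * 2 ^ F.n i := by rw [hA, hB, ← pow_add]; congr 1; ring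
  have hAB' : A ≤ B := by
    rw [hAB]
    exact le_mul_of_one_le_right hA0.le (one_le_pow₀ (by norm_num))
  have hAA : (2 : ℝ) ^ (2 * d * F.n i) = A * A := by rw [hA, ← pow_add]; congr 1; ring
  -- floor
  set z : ℝ := (q : ℝ) - (((F.N d i ω).T % 2 ^ (2 * F.n i) : ℤ) : ℝ) * 2 ^ (2 * d * F.n i) * s' / B with hz
  have f1 := Int.floor_le z
  have f2 := Int.lt_floor_add_one z
  rw [← ho] at f1 f2
  have g1 : B * ((F.N (d + 1) i ω).o k : ℝ) ≤ B * z := mul_le_mul_of_nonneg_left f1 hB0.le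
  have g2 : B * z ≤ B * ((F.N (d + 1) i ω).o k : ℝ) + B := by nlinarith
  have hBz : B * z = A * ((F.N d i ω).o k : ℝ) - A * r - (gt F i ω d - gt F i ω (d + 1)) * s' := by
    have e1 : (2 : ℝ) ^ (2 * (d + 1) * F.n i) = 2 ^ (2 * F.n i) * 2 ^ (2 * d * F.n i) := by
      rw [← pow_add]; congr 1; ring
    have e2 : gt F i ω d - gt F i ω (d + 1) = (((F.N d i ω).T % 2 ^ (2 * F.n i) : ℤ) : ℝ) * 2 ^ (2 * d * F.n i) := by
      unfold gt
      rw [hmod, e1]; ring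
    rw [e2, hz, mul_sub, mul_div_cancel₀ _ hB0.ne', hdiv, hAB]
    ring
  have e3 : gp F i ω c (d + 1) k - gp F i ω c d k =
      (B * ((F.N (d + 1) i ω).o k : ℝ) - B * z) - A * r + (gt F i ω c - gt F i ω d) * (s' - s0) := by
    unfold gp
    rw [hBz, ← hA, ← hB, ← hs', ← hs0]
    ring
  have g3 : |(gt F i ω c - gt F i ω d) * (s' - s0)| ≤ |F.C| * B := by
    rw [abs_mul, abs_of_nonneg t0]
    have h1 : (gt F i ω c - gt F i ω d) * |s' - s0| ≤ (A * A) * (|F.C| / A) := by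
      refine mul_le_mul (t1.trans_eq hAA) hs (abs_nonneg _) (by positivity)
    refine h1.trans ?_
    have h2 : A * A * (|F.C| / A) = |F.C| * A := by field_simp
    rw [h2]
    exact mul_le_mul_of_nonneg_left hAB' (abs_nonneg _)
  have g4 : 0 ≤ A * r ∧ A * r ≤ B := by
    rw [hAB]
    exact ⟨by positivity, mul_le_mul_of_nonneg_left hr1 hA0.le⟩
  rw [e3]
  rw [abs_le] at g3 ⊢
  constructor <;> nlinarith [g3.1, g3.2, g4.1, g4.2]

theorem geo_pos {i : ℕ} {ω : F.S.Ω i} (hω : 0 < (F.S.P i).w ω) {c d : ℕ} (hcd : c ≤ d) (hd : d ≤ K) (k : Fin 2) :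
    |gp F i ω c d k - gp F i ω c c k| ≤ ((d : ℝ) - c) * (|F.C| + 2) * 2 ^ (d * F.n i) := by
  induction d, hcd using Nat.le_induction with
  | base => simp
  | succ d hcd ih =>
    have h1 := ih (by omega)
    have h2 := geo_pos1 F hω hcd hd k
    have hcd' : (0 : ℝ) ≤ (d : ℝ) - c := by
      have : (c : ℝ) ≤ d := by exact_mod_cast hcd
      linarith
    have h3 : ((d : ℝ) - c) * (|F.C| + 2) * 2 ^ (d * F.n i) ≤ ((d : ℝ) - c) * (|F.C| + 2) * 2 ^ ((d + 1) * F.n i) := by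
      refine mul_le_mul_of_nonneg_left ?_ (by positivity)
      exact pow_le_pow_right₀ (by norm_num) (Nat.mul_le_mul_right _ (Nat.le_succ _))
    have h4 := abs_sub_le (gp F i ω c (d + 1) k) (gp F i ω c d k) (gp F i ω c c k)
    have h5 : (((d + 1 : ℕ) : ℝ) - c) * (|F.C| + 2) * 2 ^ ((d + 1) * F.n i) =
        (|F.C| + 2) * 2 ^ ((d + 1) * F.n i) + ((d : ℝ) - c) * (|F.C| + 2) * 2 ^ ((d + 1) * F.n i) := by
      push_cast; ring
    rw [h5]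
    linarith


/-! ### the cone -/

theorem s_eq (ι : ℕ) (c : ℕ) (τ : Z2) (k : Fin 2) : F.s ι c τ k = (τ k : ℝ) / 2 ^ (c * F.n ι) := by
  rw [(F.slp ι).cone]
  rfl

theorem geo_sl {ι : ℕ} {ω : F.S.Ω ι} (hω : 0 < (F.S.P ι).w ω) {c d : ℕ} (hcd : c ≤ d) (hd : d ≤ K) (k : Fin 2) :
    0 ≤ F.s ι d (F.N d ι ω).τ k - F.s ι c (F.N c ι ω).τ k ∧
      F.s ι d (F.N d ι ω).τ k - F.s ι c (F.N c ι ω).τ k ≤ 1 / 2 ^ (c * F.n ι) := by
  rw [s_eq, s_eq]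
  have h := geo_τ F hω hcd hd k
  set m : ℕ := (d - c) * F.n ι with hm
  have h0 : (0:ℤ) < 2 ^ m := by positivity
  have h1 := Int.emod_add_mul_ediv ((F.N d ι ω).τ k) (2 ^ m)
  have h2 := Int.emod_nonneg ((F.N d ι ω).τ k) h0.ne'
  have h3 := Int.emod_lt_of_pos ((F.N d ι ω).τ k) h0
  rw [h] at h1
  have h4 : (((F.N d ι ω).τ k : ℤ) : ℝ) = (((F.N d ι ω).τ k % 2 ^ m : ℤ) : ℝ) + 2 ^ m * ((F.N c ι ω).τ k : ℝ) := by
    have := congrArg (Int.cast (R := ℝ)) h1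
    push_cast at this ⊢
    linarith
  have h5 : (0:ℝ) ≤ (((F.N d ι ω).τ k % 2 ^ m : ℤ) : ℝ) := by exact_mod_cast h2
  have h6 : (((F.N d ι ω).τ k % 2 ^ m : ℤ) : ℝ) ≤ 2 ^ m := by exact_mod_cast h3.le
  have e1 : (2:ℝ) ^ (d * F.n ι) = 2 ^ m * 2 ^ (c * F.n ι) := by
    rw [hm, ← pow_add, ← add_mul, Nat.sub_add_cancel hcd]
  have e2 : ((F.N d ι ω).τ k : ℝ) / 2 ^ (d * F.n ι) - ((F.N c ι ω).τ k : ℝ) / 2 ^ (c * F.n ι) =
      (((F.N d ι ω).τ k % 2 ^ m : ℤ) : ℝ) / (2 ^ m * 2 ^ (c * F.n ι)) := by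
    rw [h4, e1]
    field_simp
    ring
  rw [e2]
  refine ⟨by positivity, ?_⟩
  rw [div_le_div_iff₀ (by positivity) (by positivity)]
  nlinarith [show (0:ℝ) < 2 ^ (c * F.n ι) by positivity]

/-- change of the adapted coordinate from the level `d` to the level `d + 1`, at the corner of the piece -/
noncomputable def gz (ι : ℕ) (ω : F.S.Ω ι) (d : ℕ) : ℝ :=
  ∑ k, (-((2:ℝ) ^ ((d + 1) * F.n ι) * (((F.N d ι ω).o k / 2 ^ F.n ι : ℤ) : ℝ)) *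
      (F.s ι (d + 1) (F.N (d + 1) ι ω).τ k - F.s ι d (F.N d ι ω).τ k) +
    gt F ι ω d * (F.s ι (d + 1) (F.N (d + 1) ι ω).τ k ^ 2 - F.s ι d (F.N d ι ω).τ k ^ 2) / 2)

theorem geo_w1 {ι : ℕ} {ω : F.S.Ω ι} (hω : 0 < (F.S.P ι).w ω) {d : ℕ} (hd : d < K) :
    |((F.N (d + 1) ι ω).w : ℝ) * 2 ^ (F.h * F.n ι) - ((F.N d ι ω).w : ℝ) * 2 ^ (F.h * F.n ι) - gz F ι ω d| ≤
      2 ^ (F.h * F.n ι) := by
  have hw : (F.N (d + 1) ι ω).w = (F.N d ι ω).w +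
      ⌊W.tl (F.n ι) F.h ⟨(F.N d ι ω).τ, fun k => (F.N d ι ω).o k / 2 ^ F.n ι, (F.N d ι ω).T⟩ (F.N (d + 1) ι ω).τ⌋ := by
    have h := (F.step ι ω hω d hd).2
    have h1 := congrArg Nd.w h
    have h2 : (F.s ι).g = fun _ τ o T τ' => ⌊W.tl (F.n ι) F.h ⟨τ, o, T⟩ τ'⌋ := by
      have h3 := congrArg Sl.g (F.slp ι).cone
      rw [F.hs ι] at h3
      exact h3
    rw [h1]
    show (F.N d ι ω).w + (F.s ι).g d (F.N d ι ω).τ (fun k => (F.N d ι ω).o k / 2 ^ F.n ι) (F.N d ι ω).T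
      (F.N (d + 1) ι ω).τ = _
    rw [h2]
  have htl : W.tl (F.n ι) F.h ⟨(F.N d ι ω).τ, fun k => (F.N d ι ω).o k / 2 ^ F.n ι, (F.N d ι ω).T⟩
      (F.N (d + 1) ι ω).τ = gz F ι ω d / 2 ^ (F.h * F.n ι) := by
    unfold W.tl gz gt
    congr 1
    refine sum_congr rfl fun k _ => ?_
    rw [s_eq, s_eq]
    have e1 : (2:ℝ) ^ ((d + 1) * F.n ι) = 2 ^ (d * F.n ι) * 2 ^ F.n ι := by rw [← pow_add]; congr 1; ring
    have e2 : (2:ℝ) ^ (2 * d * F.n ι) = 2 ^ (d * F.n ι) * 2 ^ (d * F.n ι) := by rw [← pow_add]; congr 1; ring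
    have e3 : (2:ℝ) ^ (2 * F.n ι + 1) = 2 ^ F.n ι * 2 ^ F.n ι * 2 := by rw [pow_succ, ← pow_add]; congr 2; ring
    rw [e1, e2, e3]
    field_simp
    ring
  have h0 : (0:ℝ) < 2 ^ (F.h * F.n ι) := by positivity
  rw [hw, htl]
  have f1 := Int.floor_le (gz F ι ω d / 2 ^ (F.h * F.n ι))
  have f2 := Int.lt_floor_add_one (gz F ι ω d / 2 ^ (F.h * F.n ι))
  have f3 : gz F ι ω d = gz F ι ω d / 2 ^ (F.h * F.n ι) * 2 ^ (F.h * F.n ι) := by field_simp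
  push_cast
  rw [abs_le]
  constructor
  · nlinarith
  · nlinarith

/-- the value of the adapted coordinate of the plank of level `d`, corrected to the plank of level `c` at its block time -/
noncomputable def gw (ι : ℕ) (ω : F.S.Ω ι) (c d : ℕ) : ℝ :=
  ((F.N d ι ω).w : ℝ) * 2 ^ (F.h * F.n ι) +
    ∑ k, ((2:ℝ) ^ (c * F.n ι) * ((F.N c ι ω).o k : ℝ) * (F.s ι d (F.N d ι ω).τ k - F.s ι c (F.N c ι ω).τ k) -
      gt F ι ω c * (F.s ι d (F.N d ι ω).τ k ^ 2 - F.s ι c (F.N c ι ω).τ k ^ 2) / 2)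

theorem wkey {P o r t s0 D A E m : ℝ} (hA : 0 < A) (hX : |A * o + t * s0 - P| ≤ E * A) (r0 : 0 ≤ r) (r1 : r ≤ m)
    (D0 : 0 ≤ D) (D1 : D ≤ 1 / A) (t0 : 0 ≤ t) (t1 : t ≤ A * A) (hE : 0 ≤ E) :
    |(P - (A * o - A * r) - t * s0) * D - t * D ^ 2 / 2| ≤ E + m + 1 / 2 := by
  have hDA : D * A ≤ 1 := by rwa [le_div_iff₀ hA] at D1
  have h1 : |P - (A * o - A * r) - t * s0| ≤ (E + m) * A := by
    have h4 : A * r ≤ A * m := mul_le_mul_of_nonneg_left r1 hA.le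
    have h5 : 0 ≤ A * r := mul_nonneg hA.le r0
    rw [abs_le] at hX ⊢
    constructor <;> linarith [hX.1, hX.2]
  have h2 : |(P - (A * o - A * r) - t * s0) * D| ≤ E + m := by
    rw [abs_mul, abs_of_nonneg D0]
    calc _ ≤ (E + m) * A * D := mul_le_mul_of_nonneg_right h1 D0
      _ = (E + m) * (D * A) := by ring
      _ ≤ (E + m) * 1 := mul_le_mul_of_nonneg_left hDA (by linarith)
      _ = _ := mul_one _
  have h3 : |t * D ^ 2 / 2| ≤ 1 / 2 := by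
    rw [abs_of_nonneg (by positivity)]
    have h6 : t * D ^ 2 ≤ A * A * D ^ 2 := mul_le_mul_of_nonneg_right t1 (by positivity)
    have h4 : A * A * D ^ 2 = (D * A) * (D * A) := by ring
    have h5 : (D * A) * (D * A) ≤ 1 * 1 := mul_le_mul hDA hDA (by positivity) zero_le_one
    linarith
  exact (abs_sub _ _).trans (add_le_add h2 h3)

theorem geo_wkey {ι : ℕ} {ω : F.S.Ω ι} (hω : 0 < (F.S.P ι).w ω) {c d : ℕ} (hcd : c ≤ d) (hd : d < K) (k : Fin 2) :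
    |((2:ℝ) ^ (c * F.n ι) * ((F.N c ι ω).o k : ℝ) -
      (2:ℝ) ^ ((d + 1) * F.n ι) * (((F.N d ι ω).o k / 2 ^ F.n ι : ℤ) : ℝ) -
        (gt F ι ω c - gt F ι ω d) * F.s ι d (F.N d ι ω).τ k) *
        (F.s ι (d + 1) (F.N (d + 1) ι ω).τ k - F.s ι d (F.N d ι ω).τ k) -
      (gt F ι ω c - gt F ι ω d) * (F.s ι (d + 1) (F.N (d + 1) ι ω).τ k - F.s ι d (F.N d ι ω).τ k) ^ 2 / 2| ≤
      K * (|F.C| + 2) + 2 ^ F.n ι + 1 / 2 := by
  obtain ⟨t0, t1⟩ := geo_t F hω hcd hd.le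
  obtain ⟨d0, d1⟩ := geo_sl F hω (Nat.le_succ d) hd k
  rw [Nat.succ_eq_add_one] at d0 d1
  have hp := geo_pos F hω hcd hd.le k
  have hgc : gp F ι ω c c k = 2 ^ (c * F.n ι) * ((F.N c ι ω).o k : ℝ) := by unfold gp; ring
  rw [hgc] at hp
  unfold gp at hp
  have hdiv := geo_mod ((F.N d ι ω).o k) (F.n ι)
  have hr0 : (0 : ℝ) ≤ (((F.N d ι ω).o k % 2 ^ F.n ι : ℤ) : ℝ) := by
    exact_mod_cast Int.emod_nonneg _ (by positivity)
  have hr1 : (((F.N d ι ω).o k % 2 ^ F.n ι : ℤ) : ℝ) ≤ 2 ^ F.n ι := by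
    exact_mod_cast (Int.emod_lt_of_pos ((F.N d ι ω).o k) (by positivity : (0 : ℤ) < 2 ^ F.n ι)).le
  have hK : ((d : ℝ) - c) * (|F.C| + 2) * 2 ^ (d * F.n ι) ≤ K * (|F.C| + 2) * 2 ^ (d * F.n ι) := by
    have h1 : (d : ℝ) ≤ K := by exact_mod_cast hd.le
    have h2 : (0 : ℝ) ≤ c := Nat.cast_nonneg c
    have h3 := abs_nonneg F.C
    gcongr
    linarith
  have hAA : (2 : ℝ) ^ (2 * d * F.n ι) = 2 ^ (d * F.n ι) * 2 ^ (d * F.n ι) := by rw [← pow_add]; congr 1; ring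
  rw [hAA] at t1
  have e1 : (2:ℝ) ^ ((d + 1) * F.n ι) * (((F.N d ι ω).o k / 2 ^ F.n ι : ℤ) : ℝ) =
      2 ^ (d * F.n ι) * ((F.N d ι ω).o k : ℝ) - 2 ^ (d * F.n ι) * (((F.N d ι ω).o k % 2 ^ F.n ι : ℤ) : ℝ) := by
    have : (2:ℝ) ^ ((d + 1) * F.n ι) = 2 ^ (d * F.n ι) * 2 ^ F.n ι := by rw [← pow_add]; congr 1; ring
    rw [this, hdiv]; ring
  rw [e1]
  exact wkey (by positivity) (hp.trans hK) hr0 hr1 d0 d1 t0 t1 (by positivity)

theorem geo_weq (ι : ℕ) (ω : F.S.Ω ι) (c d : ℕ) : gw F ι ω c (d + 1) - gw F ι ω c d =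
      (((F.N (d + 1) ι ω).w : ℝ) * 2 ^ (F.h * F.n ι) - ((F.N d ι ω).w : ℝ) * 2 ^ (F.h * F.n ι) - gz F ι ω d) +
      ∑ k, (((2:ℝ) ^ (c * F.n ι) * ((F.N c ι ω).o k : ℝ) -
      (2:ℝ) ^ ((d + 1) * F.n ι) * (((F.N d ι ω).o k / 2 ^ F.n ι : ℤ) : ℝ) -
        (gt F ι ω c - gt F ι ω d) * F.s ι d (F.N d ι ω).τ k) *
        (F.s ι (d + 1) (F.N (d + 1) ι ω).τ k - F.s ι d (F.N d ι ω).τ k) -
      (gt F ι ω c - gt F ι ω d) * (F.s ι (d + 1) (F.N (d + 1) ι ω).τ k - F.s ι d (F.N d ι ω).τ k) ^ 2 / 2) := by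
  unfold gw gz
  simp only [Fin.sum_univ_two]
  ring

theorem geo_wstep {ι : ℕ} {ω : F.S.Ω ι} (hω : 0 < (F.S.P ι).w ω) {c d : ℕ} (hcd : c ≤ d) (hd : d < K) :
    |gw F ι ω c (d + 1) - gw F ι ω c d| ≤ (2 * (K * (|F.C| + 2)) + 4) * 2 ^ (F.h * F.n ι) := by
  have hw := geo_w1 F hω hd
  have hC := abs_nonneg F.C
  have hH1 : (1:ℝ) ≤ 2 ^ (F.h * F.n ι) := one_le_pow₀ (by norm_num)
  have hHn : (2:ℝ) ^ F.n ι ≤ 2 ^ (F.h * F.n ι) :=
    pow_le_pow_right₀ (by norm_num) (Nat.le_mul_of_pos_left _ (by have := F.h2; omega))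
  rw [geo_weq, Fin.sum_univ_two]
  have k0 := geo_wkey F hω hcd hd 0
  have k1 := geo_wkey F hω hcd hd 1
  refine (abs_add_le _ _).trans ?_
  refine (add_le_add hw ((abs_add_le _ _).trans (add_le_add k0 k1))).trans ?_
  have hKC : (0:ℝ) ≤ K * (|F.C| + 2) := by positivity
  have h3 : K * (|F.C| + 2) * 1 ≤ K * (|F.C| + 2) * 2 ^ (F.h * F.n ι) := mul_le_mul_of_nonneg_left hH1 hKC
  have e : (2 * (K * (|F.C| + 2)) + 4) * (2:ℝ) ^ (F.h * F.n ι) =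
    2 * (K * (|F.C| + 2) * 2 ^ (F.h * F.n ι)) + 4 * 2 ^ (F.h * F.n ι) := by ring
  rw [e]
  linarith

theorem geo_w {ι : ℕ} {ω : F.S.Ω ι} (hω : 0 < (F.S.P ι).w ω) {c d : ℕ} (hcd : c ≤ d) (hd : d ≤ K) :
    |gw F ι ω c d - ((F.N c ι ω).w : ℝ) * 2 ^ (F.h * F.n ι)| ≤
      ((d : ℝ) - c) * (2 * (K * (|F.C| + 2)) + 4) * 2 ^ (F.h * F.n ι) := by
  induction d, hcd using Nat.le_induction with
  | base => simp [gw]
  | succ d hcd ih =>
    have h1 := ih (by omega)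
    have h2 := geo_wstep F hω hcd hd
    have h4 := abs_sub_le (gw F ι ω c (d + 1)) (gw F ι ω c d) (((F.N c ι ω).w : ℝ) * 2 ^ (F.h * F.n ι))
    have h5 : (((d + 1 : ℕ) : ℝ) - c) * (2 * (K * (|F.C| + 2)) + 4) * 2 ^ (F.h * F.n ι) =
        (2 * (K * (|F.C| + 2)) + 4) * 2 ^ (F.h * F.n ι) +
          ((d : ℝ) - c) * (2 * (K * (|F.C| + 2)) + 4) * 2 ^ (F.h * F.n ι) := by
      push_cast; ring
    rw [h5]
    linarith

end G327

/-- normalised relation between the ray `(y, a, z)` of a plank of a lower level (radius `r`, thickness `H`, beginning of its block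
= time `e` of the block of the higher level) and the ray `(y', a', z')` of a plank of a higher level (unit of length multiplied by
`q²`) -/
structure Nr (C q e r H : ℝ) (y a : Fin 2 → ℝ) (z : ℝ) (y' a' : Fin 2 → ℝ) (z' : ℝ) : Prop where
  e0 : 0 ≤ e
  e1 : e ≤ q ^ 2
  sl : ∀ k, |a' k - a k| ≤ r
  pos : ∀ k, |y k - (q ^ 2 * y' k + e * a' k)| ≤ C * q * r
  ζ : |z + ∑ k, y k * (a k - a' k) - (q ^ 2 * z' - e * (∑ k, a' k ^ 2) / 2)| ≤ C * H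

/-- the planks `S`, `S'` of levels `i`, `i + d` belong to one flag -/
structure Gp (C : ℝ) (s : Sl) (n i d : ℕ) (S S' : Nd) : Prop where
  T : S.T / 2 ^ (2 * d * n) = S'.T
  τ : ∀ k, S'.τ k / 2 ^ (d * n) = S.τ k
  nr : Nr C (2 ^ (d * n)) ((S.T : ℝ) - (S'.T : ℝ) * (2 ^ (d * n)) ^ 2) ((1 / 2) ^ (i * n)) (W.hh n s.h i)
    (py n i S) (s i S.τ) (pz s n i S) (py n (i + d) S') (s (i + d) S'.τ) (pz s n (i + d) S')

open G327 in
/-- **geometry of a flag** -/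
theorem gp327 {K : ℕ} (F : Flg K) : ∃ C : ℝ, 1 ≤ C ∧ ∀ ι ω, 0 < (F.S.P ι).w ω → ∀ i d, i + d ≤ K →
    Gp C (F.s ι) (F.n ι) i d (F.N i ι ω) (F.N (i + d) ι ω) := by
  have hKK : (0:ℝ) ≤ K := Nat.cast_nonneg K
  refine ⟨1 + K * (2 * (K * (|F.C| + 2)) + 4 + (|F.C| + 2)), by
    have h1 := abs_nonneg F.C
    have h2 : 0 ≤ (K:ℝ) * (2 * (K * (|F.C| + 2)) + 4 + (|F.C| + 2)) := by positivity
    linarith, ?_⟩
  intro ι ω hω i d hd
  set C' : ℝ := 1 + K * (2 * (K * (|F.C| + 2)) + 4 + (|F.C| + 2)) with hC'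
  have hC := abs_nonneg F.C
  have hdK : ((i + d : ℕ) : ℝ) - i ≤ K := by
    have h1 : ((i + d : ℕ) : ℝ) ≤ K := by exact_mod_cast hd
    have h2 : (0:ℝ) ≤ i := Nat.cast_nonneg i
    linarith
  have hd0 : (0:ℝ) ≤ ((i + d : ℕ) : ℝ) - i := by push_cast; linarith [Nat.cast_nonneg (α := ℝ) d]
  have hA : (0:ℝ) < 2 ^ (i * F.n ι) := by positivity
  have b1 : (2:ℝ) ^ ((i + d) * F.n ι) = 2 ^ (d * F.n ι) * 2 ^ (i * F.n ι) := by rw [← pow_add]; congr 1; ring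
  have b2 : (2:ℝ) ^ (2 * i * F.n ι) = 2 ^ (i * F.n ι) * 2 ^ (i * F.n ι) := by rw [← pow_add]; congr 1; ring
  have b3 : (2:ℝ) ^ (2 * (i + d) * F.n ι) = (2 ^ (d * F.n ι)) ^ 2 * (2 ^ (i * F.n ι) * 2 ^ (i * F.n ι)) := by
    rw [← pow_mul, ← pow_add, ← pow_add]; congr 1; ring
  have hr : (1 / 2 : ℝ) ^ (i * F.n ι) = 1 / 2 ^ (i * F.n ι) := by rw [one_div, inv_pow, one_div]
  obtain ⟨t0, t1⟩ := geo_t F hω (Nat.le_add_right i d) hd
  have et : gt F ι ω i - gt F ι ω (i + d) = (((F.N i ι ω).T : ℝ) - ((F.N (i + d) ι ω).T : ℝ) * (2 ^ (d * F.n ι)) ^ 2) *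
      (2 ^ (i * F.n ι) * 2 ^ (i * F.n ι)) := by
    unfold gt
    rw [b2, b3]; ring
  refine ⟨?_, ?_, ⟨?_, ?_, ?_, ?_, ?_⟩⟩
  · have := geo_T F hω (Nat.le_add_right i d) hd
    rwa [Nat.add_sub_cancel_left] at this
  · intro k
    have := geo_τ F hω (Nat.le_add_right i d) hd k
    rwa [Nat.add_sub_cancel_left] at this
  · rw [et] at t0
    exact nonneg_of_mul_nonneg_left t0 (by positivity)
  · rw [et, b3] at t1
    exact le_of_mul_le_mul_right t1 (by positivity)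
  · intro k
    obtain ⟨h0, h1⟩ := geo_sl F hω (Nat.le_add_right i d) hd k
    rw [abs_of_nonneg h0, hr]
    exact h1
  · intro k
    have h1 := geo_pos F hω (Nat.le_add_right i d) hd k
    have h2 : gp F ι ω i i k = 2 ^ (i * F.n ι) * ((F.N i ι ω).o k : ℝ) := by unfold gp; ring
    rw [h2] at h1
    unfold gp at h1
    rw [et, b1] at h1
    have e1 : py (F.n ι) i (F.N i ι ω) k - ((2 ^ (d * F.n ι)) ^ 2 * py (F.n ι) (i + d) (F.N (i + d) ι ω) k +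
        (((F.N i ι ω).T : ℝ) - ((F.N (i + d) ι ω).T : ℝ) * (2 ^ (d * F.n ι)) ^ 2) *
          F.s ι (i + d) (F.N (i + d) ι ω).τ k) =
        -(2 ^ (d * F.n ι) * 2 ^ (i * F.n ι) * ((F.N (i + d) ι ω).o k : ℝ) +
          (((F.N i ι ω).T : ℝ) - ((F.N (i + d) ι ω).T : ℝ) * (2 ^ (d * F.n ι)) ^ 2) *
            (2 ^ (i * F.n ι) * 2 ^ (i * F.n ι)) * F.s ι (i + d) (F.N (i + d) ι ω).τ k -
          2 ^ (i * F.n ι) * ((F.N i ι ω).o k : ℝ)) / (2 ^ (i * F.n ι) * 2 ^ (i * F.n ι)) := by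
      unfold py
      rw [b1]
      field_simp
      ring
    rw [e1, abs_div, abs_neg, abs_of_pos (by positivity : (0:ℝ) < 2 ^ (i * F.n ι) * 2 ^ (i * F.n ι)),
      div_le_iff₀ (by positivity)]
    refine h1.trans ?_
    rw [hr]
    have e2 : C' * 2 ^ (d * F.n ι) * (1 / 2 ^ (i * F.n ι)) * (2 ^ (i * F.n ι) * 2 ^ (i * F.n ι)) =
        C' * (2 ^ (d * F.n ι) * 2 ^ (i * F.n ι)) := by field_simp
    rw [e2]
    refine mul_le_mul_of_nonneg_right ?_ (by positivity)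
    have h3 : (((i + d : ℕ) : ℝ) - i) * (|F.C| + 2) ≤ K * (|F.C| + 2) := by gcongr
    have h4 : 0 ≤ K * (2 * (K * (|F.C| + 2)) + 4) := by positivity
    have h5 : C' = 1 + K * (2 * (K * (|F.C| + 2)) + 4) + K * (|F.C| + 2) := by rw [hC']; ring
    rw [h5]
    linarith
  · have h1 := geo_w F hω (Nat.le_add_right i d) hd
    unfold gw at h1
    have e1 : pz (F.s ι) (F.n ι) i (F.N i ι ω) + ∑ k, py (F.n ι) i (F.N i ι ω) k *
        (F.s ι i (F.N i ι ω).τ k - F.s ι (i + d) (F.N (i + d) ι ω).τ k) -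
        ((2 ^ (d * F.n ι)) ^ 2 * pz (F.s ι) (F.n ι) (i + d) (F.N (i + d) ι ω) -
          (((F.N i ι ω).T : ℝ) - ((F.N (i + d) ι ω).T : ℝ) * (2 ^ (d * F.n ι)) ^ 2) *
            (∑ k, F.s ι (i + d) (F.N (i + d) ι ω).τ k ^ 2) / 2) =
        -(((F.N (i + d) ι ω).w : ℝ) * 2 ^ (F.h * F.n ι) +
            ∑ k, ((2:ℝ) ^ (i * F.n ι) * ((F.N i ι ω).o k : ℝ) *
              (F.s ι (i + d) (F.N (i + d) ι ω).τ k - F.s ι i (F.N i ι ω).τ k) -
            gt F ι ω i * (F.s ι (i + d) (F.N (i + d) ι ω).τ k ^ 2 - F.s ι i (F.N i ι ω).τ k ^ 2) / 2) -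
            ((F.N i ι ω).w : ℝ) * 2 ^ (F.h * F.n ι)) / (2 ^ (i * F.n ι) * 2 ^ (i * F.n ι)) := by
      unfold pz py gt
      rw [F.hs ι, b2, b3]
      simp only [Fin.sum_univ_two]
      field_simp
      ring
    rw [e1, abs_div, abs_neg, abs_of_pos (by positivity : (0:ℝ) < 2 ^ (i * F.n ι) * 2 ^ (i * F.n ι)),
      div_le_iff₀ (by positivity)]
    refine h1.trans ?_
    unfold W.hh
    rw [F.hs ι, b2]
    have e2 : C' * (2 ^ (F.h * F.n ι) / (2 ^ (i * F.n ι) * 2 ^ (i * F.n ι))) * (2 ^ (i * F.n ι) * 2 ^ (i * F.n ι)) =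
        C' * 2 ^ (F.h * F.n ι) := by field_simp
    rw [e2]
    refine mul_le_mul_of_nonneg_right ?_ (by positivity)
    have h3 : (((i + d : ℕ) : ℝ) - i) * (2 * (K * (|F.C| + 2)) + 4) ≤ K * (2 * (K * (|F.C| + 2)) + 4) := by gcongr
    have h4 : 0 ≤ K * (|F.C| + 2) := by positivity
    have h5 : C' = 1 + K * (2 * (K * (|F.C| + 2)) + 4) + K * (|F.C| + 2) := by rw [hC']; ring
    rw [h5]
    linarith

end Vale.Agent.P106.R.E
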