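import Vale.Agent.P106.R.H327.Cov
import Vale.Agent.P106.R.H327.Geo

/-! # P106 / R / E5 : conformal boxes under change of the level (helper327)

`up_wd327`, `dn_wd327` : the ray of the plank of the other level of a flag is in the transported box. -/

set_option autoImplicit false

namespace Vale.Agent.P106.R.E

open Finset Vale.Agent.P106.R.C2
open Vale.Agent.P106.W (Cbx)

theorem abs_fn_le327 {θ B : ℝ} {a : Fin 2 → ℝ} (h : ∀ k, |a k| ≤ B) : |fn θ a| ≤ 2 * B := by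
  have h0 := h 0
  have h1 := h 1
  have hc := Real.abs_cos_le_one θ
  have hs := Real.abs_sin_le_one θ
  simp only [fn]
  calc |-Real.sin θ * a 0 + Real.cos θ * a 1| ≤ |Real.sin θ| * |a 0| + |Real.cos θ| * |a 1| := by
        rw [← abs_mul, ← abs_mul]
        calc |-Real.sin θ * a 0 + Real.cos θ * a 1| ≤ |-Real.sin θ * a 0| + |Real.cos θ * a 1| := abs_add_le _ _
          _ = _ := by rw [neg_mul, abs_neg]
    _ ≤ 1 * B + 1 * B := by gcongr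
    _ = 2 * B := by ring

theorem abs_sum2_327 {f : Fin 2 → ℝ} {B : ℝ} (h : ∀ k, |f k| ≤ B) : |∑ k, f k| ≤ 2 * B := by
  rw [Fin.sum_univ_two, two_mul]
  exact (abs_add_le _ _).trans (add_le_add (h 0) (h 1))

section

variable (B : Cbx)

/-- **perturbation of the ray** -/
theorem pert327 {y a y2 a2 : Fin 2 → ℝ} {z z2 ρ σ τ X V : ℝ} (ha : ∀ k, |a2 k - a k| ≤ ρ) (hy : ∀ k, |y k - y2 k| ≤ σ)
    (hz : |z + ∑ k, y k * (a k - a2 k) - z2| ≤ τ) (hX1 : ∀ k, |y k - B.p k| ≤ X) (hX2 : ∀ k, |y2 k - B.p k| ≤ X)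
    (hV1 : ∀ k, |a k - B.v k| ≤ V) (hV2 : ∀ k, |a2 k - B.v k| ≤ V) :
    |B.zz y2 a2 z2 - B.zz y a z| ≤ τ + 2 * (σ * V) ∧
    |B.g0 y2 a2 z2 - B.g0 y a z| ≤ 2 * σ + |B.κ| * (τ + 2 * (σ * V)) + |B.α| * (4 * (σ * X)) ∧
    |B.g1 y2 a2 z2 - B.g1 y a z| ≤ 2 * ρ + |B.κ| * (2 * (ρ * V)) + 2 * |B.α| * (τ + 4 * (σ * V) + 2 * (X * ρ)) := by
  have hσ : 0 ≤ σ := (abs_nonneg _).trans (hy 0)
  have hρ : 0 ≤ ρ := (abs_nonneg _).trans (ha 0)
  have hX : 0 ≤ X := (abs_nonneg _).trans (hX1 0)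
  have hV : 0 ≤ V := (abs_nonneg _).trans (hV1 0)
  have hZ : |B.zz y2 a2 z2 - B.zz y a z| ≤ τ + 2 * (σ * V) := by
    have e : B.zz y2 a2 z2 - B.zz y a z = -(z + ∑ k, y k * (a k - a2 k) - z2) + -∑ k, (y k - y2 k) * (a2 k - B.v k) := by
      unfold Cbx.zz
      simp only [Fin.sum_univ_two]
      ring
    rw [e]
    refine (abs_add_le _ _).trans ?_
    rw [abs_neg, abs_neg]
    refine add_le_add hz (abs_sum2_327 fun k => ?_)
    rw [abs_mul]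
    exact mul_le_mul (hy k) (hV2 k) (abs_nonneg _) hσ
  refine ⟨hZ, ?_, ?_⟩
  · have e : B.g0 y2 a2 z2 - B.g0 y a z = fn B.θ (fun k => y2 k - y k) + B.κ * (B.zz y2 a2 z2 - B.zz y a z) +
        -(B.α * ∑ k, (y2 k - y k) * ((y2 k - B.p k) + (y k - B.p k))) := by
      unfold Cbx.g0 Cbx.zz
      simp only [Fin.sum_univ_two, fn, Pi.sub_apply]
      ring
    rw [e]
    refine (abs_add_le _ _).trans (add_le_add ((abs_add_le _ _).trans (add_le_add ?_ ?_)) ?_)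
    · exact abs_fn_le327 fun k => by rw [abs_sub_comm]; exact hy k
    · rw [abs_mul]
      exact mul_le_mul_of_nonneg_left hZ (abs_nonneg _)
    · rw [abs_neg, abs_mul]
      refine mul_le_mul_of_nonneg_left ?_ (abs_nonneg _)
      have h1 : |∑ k, (y2 k - y k) * ((y2 k - B.p k) + (y k - B.p k))| ≤ 2 * (σ * (X + X)) := by
        refine abs_sum2_327 fun k => ?_
        rw [abs_mul]
        refine mul_le_mul (by rw [abs_sub_comm]; exact hy k) ?_ (abs_nonneg _) hσ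
        exact (abs_add_le _ _).trans (add_le_add (hX2 k) (hX1 k))
      refine h1.trans (le_of_eq ?_)
      ring
  · have e : B.g1 y2 a2 z2 - B.g1 y a z = fn B.θ (fun k => a2 k - a k) +
        B.κ * ((∑ k, (a2 k - a k) * ((a2 k - B.v k) + (a k - B.v k))) / 2) +
        2 * B.α * ((B.zz y2 a2 z2 - B.zz y a z) + -(∑ k, (y2 k - y k) * (a2 k - B.v k) +
          ∑ k, (y k - B.p k) * (a2 k - a k))) := by
      unfold Cbx.g1 Cbx.zz
      simp only [Fin.sum_univ_two, fn, Pi.sub_apply]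
      ring
    rw [e]
    refine (abs_add_le _ _).trans (add_le_add ((abs_add_le _ _).trans (add_le_add ?_ ?_)) ?_)
    · exact abs_fn_le327 ha
    · rw [abs_mul]
      refine mul_le_mul_of_nonneg_left ?_ (abs_nonneg _)
      have h1 : |∑ k, (a2 k - a k) * ((a2 k - B.v k) + (a k - B.v k))| ≤ 2 * (ρ * (V + V)) := by
        refine abs_sum2_327 fun k => ?_
        rw [abs_mul]
        exact mul_le_mul (ha k) ((abs_add_le _ _).trans (add_le_add (hV2 k) (hV1 k))) (abs_nonneg _) hρ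
      rw [abs_div, abs_two, div_le_iff₀ (by norm_num)]
      refine h1.trans (le_of_eq ?_)
      ring
    · rw [abs_mul, abs_mul, abs_two]
      refine mul_le_mul_of_nonneg_left ?_ (by positivity)
      refine (abs_add_le _ _).trans ?_
      rw [abs_neg]
      have h1 : |∑ k, (y2 k - y k) * (a2 k - B.v k)| ≤ 2 * (σ * V) := by
        refine abs_sum2_327 fun k => ?_
        rw [abs_mul]
        exact mul_le_mul (by rw [abs_sub_comm]; exact hy k) (hV2 k) (abs_nonneg _) hσ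
      have h2 : |∑ k, (y k - B.p k) * (a2 k - a k)| ≤ 2 * (X * ρ) := by
        refine abs_sum2_327 fun k => ?_
        rw [abs_mul]
        exact mul_le_mul (hX1 k) (ha k) (abs_nonneg _) hX
      have h3 := abs_add_le (∑ k, (y2 k - y k) * (a2 k - B.v k)) (∑ k, (y k - B.p k) * (a2 k - a k))
      linarith

/-- the box in the coordinates of the higher level -/
noncomputable def upB (q e u1 u2 : ℝ) : Cbx :=
  ⟨B.θ, u1, u2, B.κ - 2 * B.α * e, q ^ 2 * B.α, fun k => (B.p k - e * B.v k) / q ^ 2, B.v,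
    (B.ω + e * (∑ k, B.v k ^ 2) / 2) / q ^ 2⟩

/-- the box in the coordinates of the lower level -/
noncomputable def dnB (q e u1 u2 : ℝ) : Cbx :=
  ⟨B.θ, u1, u2, B.κ + 2 * e * (B.α / q ^ 2), B.α / q ^ 2, fun k => q ^ 2 * B.p k + e * B.v k, B.v,
    q ^ 2 * B.ω - e * (∑ k, B.v k ^ 2) / 2⟩

variable {q e u1 u2 : ℝ} (y' a' : Fin 2 → ℝ) (z' : ℝ)

theorem upB_zz (hq : q ≠ 0) : q ^ 2 * (upB B q e u1 u2).zz y' a' z' =
    B.zz (fun k => q ^ 2 * y' k + e * a' k) a' (q ^ 2 * z' - e * (∑ k, a' k ^ 2) / 2) -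
      e * (∑ k, (a' k - B.v k) ^ 2) / 2 := by
  unfold Cbx.zz upB
  simp only [Fin.sum_univ_two]
  field_simp
  ring

theorem upB_g1 (hq : q ≠ 0) : (upB B q e u1 u2).g1 y' a' z' =
    B.g1 (fun k => q ^ 2 * y' k + e * a' k) a' (q ^ 2 * z' - e * (∑ k, a' k ^ 2) / 2) := by
  unfold Cbx.g1 upB
  simp only [Fin.sum_univ_two, fn, Pi.sub_apply]
  field_simp
  ring

theorem upB_g0 (hq : q ≠ 0) : q ^ 2 * (upB B q e u1 u2).g0 y' a' z' =
    B.g0 (fun k => q ^ 2 * y' k + e * a' k) a' (q ^ 2 * z' - e * (∑ k, a' k ^ 2) / 2) -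
      e * B.g1 (fun k => q ^ 2 * y' k + e * a' k) a' (q ^ 2 * z' - e * (∑ k, a' k ^ 2) / 2) := by
  unfold Cbx.g1 Cbx.g0 upB
  simp only [Fin.sum_univ_two, fn, Pi.sub_apply]
  field_simp
  ring

theorem upB_dnB (hq : q ≠ 0) : upB (dnB B q e u1 u2) q e B.u1 B.u2 = B := by
  obtain ⟨θ, w1, w2, κ, α, p, v, ω⟩ := B
  simp only [upB, dnB, Cbx.mk.injEq]
  refine ⟨trivial, trivial, trivial, ?_, ?_, ?_, trivial, ?_⟩
  · ring
  · field_simp
  · funext k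
    field_simp
    ring
  · field_simp
    ring

theorem dnB_zz (hq : q ≠ 0) : (dnB B q e u1 u2).zz (fun k => q ^ 2 * y' k + e * a' k) a'
    (q ^ 2 * z' - e * (∑ k, a' k ^ 2) / 2) = q ^ 2 * B.zz y' a' z' + e * (∑ k, (a' k - B.v k) ^ 2) / 2 := by
  have h := upB_zz (dnB B q e u1 u2) (q := q) (e := e) (u1 := B.u1) (u2 := B.u2) y' a' z' hq
  rw [upB_dnB B hq] at h
  rw [h]
  show _ = _ - e * (∑ k, (a' k - B.v k) ^ 2) / 2 + e * (∑ k, (a' k - B.v k) ^ 2) / 2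
  ring

theorem dnB_g1 (hq : q ≠ 0) : (dnB B q e u1 u2).g1 (fun k => q ^ 2 * y' k + e * a' k) a'
    (q ^ 2 * z' - e * (∑ k, a' k ^ 2) / 2) = B.g1 y' a' z' := by
  have h := upB_g1 (dnB B q e u1 u2) (q := q) (e := e) (u1 := B.u1) (u2 := B.u2) y' a' z' hq
  rw [upB_dnB B hq] at h
  exact h.symm

theorem dnB_g0 (hq : q ≠ 0) : (dnB B q e u1 u2).g0 (fun k => q ^ 2 * y' k + e * a' k) a'
    (q ^ 2 * z' - e * (∑ k, a' k ^ 2) / 2) = q ^ 2 * B.g0 y' a' z' + e * B.g1 y' a' z' := by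
  have h := upB_g0 (dnB B q e u1 u2) (q := q) (e := e) (u1 := B.u1) (u2 := B.u2) y' a' z' hq
  rw [upB_dnB B hq, dnB_g1 B y' a' z' hq] at h
  rw [h]
  ring

end

/-- numbers `C, q ≥ 1` -/
theorem cq327 {C q : ℝ} (hC : 1 ≤ C) (hq : 1 ≤ q) : 1 ≤ C ^ 2 * q ^ 2 ∧ C ≤ C ^ 2 * q ^ 2 ∧ C * q ≤ C ^ 2 * q ^ 2 ∧
    q ^ 2 ≤ C ^ 2 * q ^ 2 := by
  have h1 : 1 ≤ C ^ 2 := one_le_pow₀ hC
  have h2 : 1 ≤ q ^ 2 := one_le_pow₀ hq
  have h3 : 1 ≤ C * q := by nlinarith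
  refine ⟨by nlinarith, by nlinarith, ?_, by nlinarith⟩
  have : C ^ 2 * q ^ 2 = (C * q) * (C * q) := by ring
  rw [this]
  nlinarith

section up

variable {B : Cbx} {C q e r H : ℝ} {y a y' a' : Fin 2 → ℝ} {z z' : ℝ}

/-- the ray of the higher level in the coordinates of the lower level -/
theorem up_aux327 (hC : 1 ≤ C) (hq : 1 ≤ q) (hr : 0 < r) (hH : 0 < H) (hB : B.ok (1 / 8) r H) (hin : B.In H y a z)
    (hn : Nr C q e r H y a z y' a' z') :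
    (∀ k, |q ^ 2 * y' k + e * a' k - B.p k| ≤ 2 * (C * q) * B.u2) ∧ (∀ k, |a' k - B.v k| ≤ 2 * B.u2) ∧
    |B.zz (fun k => q ^ 2 * y' k + e * a' k) a' (q ^ 2 * z' - e * (∑ k, a' k ^ 2) / 2)| ≤
      6 * (C ^ 2 * q ^ 2) * max (B.u2 ^ 2) H ∧
    |B.g0 (fun k => q ^ 2 * y' k + e * a' k) a' (q ^ 2 * z' - e * (∑ k, a' k ^ 2) / 2)| ≤ 6 * (C ^ 2 * q ^ 2) * B.u1 ∧
    |B.g1 (fun k => q ^ 2 * y' k + e * a' k) a' (q ^ 2 * z' - e * (∑ k, a' k ^ 2) / 2)| ≤ 9 * (C ^ 2 * q ^ 2) * B.u1 := by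
  have hu1 : 0 < B.u1 := lt_of_lt_of_le hr hB.r1
  have hu2 : 0 < B.u2 := lt_of_lt_of_le hu1 hB.u12
  have hC0 : 0 < C := by linarith
  have hq0 : 0 < q := by linarith
  obtain ⟨c1, c2, c3, c4⟩ := cq327 hC hq
  obtain ⟨hy, ha, hz, h0, h1⟩ := (B.in_iff H y a z).1 hin
  have hCq : 1 ≤ C * q := by nlinarith
  have hσ : ∀ k, |y k - (q ^ 2 * y' k + e * a' k)| ≤ C * q * B.u1 := fun k =>
    (hn.pos k).trans (mul_le_mul_of_nonneg_left hB.r1 (by positivity))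
  have hρ : ∀ k, |a' k - a k| ≤ B.u1 := fun k => (hn.sl k).trans hB.r1
  have hCu : B.u2 ≤ C * q * B.u2 := le_mul_of_one_le_left hu2.le hCq
  have hCu1 : C * q * B.u1 ≤ C * q * B.u2 := mul_le_mul_of_nonneg_left hB.u12 (by positivity)
  have hX2 : ∀ k, |q ^ 2 * y' k + e * a' k - B.p k| ≤ 2 * (C * q) * B.u2 := fun k => by
    have e1 : q ^ 2 * y' k + e * a' k - B.p k = (y k - B.p k) - (y k - (q ^ 2 * y' k + e * a' k)) := by ring
    rw [e1]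
    have := (abs_sub (y k - B.p k) (y k - (q ^ 2 * y' k + e * a' k))).trans (add_le_add (hy k) (hσ k))
    linarith
  have hX1 : ∀ k, |y k - B.p k| ≤ 2 * (C * q) * B.u2 := fun k => (hy k).trans (by linarith)
  have hV2 : ∀ k, |a' k - B.v k| ≤ 2 * B.u2 := fun k => by
    have e1 : a' k - B.v k = (a k - B.v k) + (a' k - a k) := by ring
    rw [e1]
    have := (abs_add_le (a k - B.v k) (a' k - a k)).trans (add_le_add (ha k) (hρ k))
    linarith [hB.u12]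
  have hV1 : ∀ k, |a k - B.v k| ≤ 2 * B.u2 := fun k => (ha k).trans (by linarith)
  obtain ⟨p1, p2, p3⟩ := pert327 B hρ hσ hn.ζ hX1 hX2 hV1 hV2
  have t0 : ∀ x y : ℝ, |x| ≤ |y| + |x - y| := fun x y => by
    have := abs_add_le y (x - y)
    rwa [add_sub_cancel] at this
  have hm1 : B.u2 ^ 2 ≤ max (B.u2 ^ 2) H := le_max_left _ _
  have hm2 : H ≤ max (B.u2 ^ 2) H := le_max_right _ _
  have hm0 : 0 ≤ max (B.u2 ^ 2) H := le_trans (by positivity) hm1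
  have hu12 : B.u1 * B.u2 ≤ B.u2 ^ 2 := by rw [pow_two]; exact mul_le_mul_of_nonneg_right hB.u12 hu2.le
  refine ⟨hX2, hV2, ?_, ?_, ?_⟩
  · refine (t0 _ (B.zz y a z)).trans ((add_le_add hz p1).trans ?_)
    have h3 : C * H ≤ C * max (B.u2 ^ 2) H := by gcongr
    have h4 : C * q * B.u1 * (2 * B.u2) ≤ 2 * (C * q) * max (B.u2 ^ 2) H := by
      have : C * q * B.u1 * (2 * B.u2) = 2 * (C * q) * (B.u1 * B.u2) := by ring
      rw [this]
      gcongr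
      exact hu12.trans hm1
    have h5 : C * max (B.u2 ^ 2) H ≤ C ^ 2 * q ^ 2 * max (B.u2 ^ 2) H := by gcongr
    have h6 : C * q * max (B.u2 ^ 2) H ≤ C ^ 2 * q ^ 2 * max (B.u2 ^ 2) H := by gcongr
    have h7 : 1 * max (B.u2 ^ 2) H ≤ C ^ 2 * q ^ 2 * max (B.u2 ^ 2) H := by gcongr
    linarith
  · refine (t0 _ (B.g0 y a z)).trans ((add_le_add h0 p2).trans ?_)
    have h3 : |B.κ| * (C * H + 2 * (C * q * B.u1 * (2 * B.u2))) ≤ C * B.u1 + C * q * B.u1 / 2 := by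
      have : |B.κ| * (C * H + 2 * (C * q * B.u1 * (2 * B.u2))) = C * (|B.κ| * H) + 4 * (C * q * B.u1) * (|B.κ| * B.u2) := by
        ring
      rw [this]
      have h4 : C * (|B.κ| * H) ≤ C * B.u1 := mul_le_mul_of_nonneg_left hB.κH hC0.le
      have h5 : 4 * (C * q * B.u1) * (|B.κ| * B.u2) ≤ 4 * (C * q * B.u1) * (1 / 8) :=
        mul_le_mul_of_nonneg_left hB.κ2 (by positivity)
      linarith
    have h6 : |B.α| * (4 * (C * q * B.u1 * (2 * (C * q) * B.u2))) ≤ C ^ 2 * q ^ 2 * B.u1 := by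
      have : |B.α| * (4 * (C * q * B.u1 * (2 * (C * q) * B.u2))) = 8 * (C ^ 2 * q ^ 2 * B.u1) * (|B.α| * B.u2) := by
        ring
      rw [this]
      have h5 : 8 * (C ^ 2 * q ^ 2 * B.u1) * (|B.α| * B.u2) ≤ 8 * (C ^ 2 * q ^ 2 * B.u1) * (1 / 8) :=
        mul_le_mul_of_nonneg_left hB.α2 (by positivity)
      linarith
    have h7 : C * q * B.u1 ≤ C ^ 2 * q ^ 2 * B.u1 := by gcongr
    have h8 : C * B.u1 ≤ C ^ 2 * q ^ 2 * B.u1 := by gcongr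
    have h9 : 1 * B.u1 ≤ C ^ 2 * q ^ 2 * B.u1 := by gcongr
    linarith
  · refine (t0 _ (B.g1 y a z)).trans ((add_le_add h1 p3).trans ?_)
    have h3 : |B.κ| * (2 * (B.u1 * (2 * B.u2))) ≤ B.u1 := by
      have : |B.κ| * (2 * (B.u1 * (2 * B.u2))) = 4 * B.u1 * (|B.κ| * B.u2) := by ring
      rw [this]
      have h5 : 4 * B.u1 * (|B.κ| * B.u2) ≤ 4 * B.u1 * (1 / 8) := mul_le_mul_of_nonneg_left hB.κ2 (by positivity)
      linarith
    have h4 : 2 * |B.α| * (C * H + 4 * (C * q * B.u1 * (2 * B.u2)) + 2 * (2 * (C * q) * B.u2 * B.u1)) ≤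
        2 * (C * B.u1) + 3 * (C * q * B.u1) := by
      have : 2 * |B.α| * (C * H + 4 * (C * q * B.u1 * (2 * B.u2)) + 2 * (2 * (C * q) * B.u2 * B.u1)) =
          2 * (C * (|B.α| * H)) + 24 * (C * q * B.u1) * (|B.α| * B.u2) := by ring
      rw [this]
      have h4 : C * (|B.α| * H) ≤ C * B.u1 := mul_le_mul_of_nonneg_left hB.αH hC0.le
      have h5 : 24 * (C * q * B.u1) * (|B.α| * B.u2) ≤ 24 * (C * q * B.u1) * (1 / 8) :=
        mul_le_mul_of_nonneg_left hB.α2 (by positivity)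
      linarith
    have h7 : C * q * B.u1 ≤ C ^ 2 * q ^ 2 * B.u1 := by gcongr
    have h8 : C * B.u1 ≤ C ^ 2 * q ^ 2 * B.u1 := by gcongr
    have h9 : 1 * B.u1 ≤ C ^ 2 * q ^ 2 * B.u1 := by gcongr
    linarith

/-- **(up)** the plank of the higher level in the transported box -/
theorem up_wd327 (hC : 1 ≤ C) (hq : 1 ≤ q) (hr : 0 < r) (hH : 0 < H) (hB : B.ok (1 / 8) r H) (hin : B.In H y a z)
    (hn : Nr C q e r H y a z y' a' z') :
    Wd (upB B q e B.u1 B.u2) (20 * (C ^ 2 * q ^ 2)) (H / q ^ 2) y' a' z' := by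
  have hu1 : 0 < B.u1 := lt_of_lt_of_le hr hB.r1
  have hu2 : 0 < B.u2 := lt_of_lt_of_le hu1 hB.u12
  have hq0 : 0 < q := by linarith
  have hqq : 0 < q ^ 2 := by positivity
  have hq2 : 1 ≤ q ^ 2 := one_le_pow₀ hq
  obtain ⟨c1, c2, c3, c4⟩ := cq327 hC hq
  obtain ⟨hX, hV, hZ, h0, h1⟩ := up_aux327 hC hq hr hH hB hin hn
  have he := hn.e0
  have he1 := hn.e1
  have div : ∀ x b : ℝ, |q ^ 2 * x| ≤ q ^ 2 * b → |x| ≤ b := fun x b h => by
    rw [abs_mul, abs_of_pos hqq] at h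
    exact le_of_mul_le_mul_left h hqq
  refine ⟨fun k => ?_, fun k => ?_, ?_, ?_, ?_⟩
  · show |y' k - (B.p k - e * B.v k) / q ^ 2| ≤ 20 * (C ^ 2 * q ^ 2) * B.u2
    apply div
    have e1 : q ^ 2 * (y' k - (B.p k - e * B.v k) / q ^ 2) = (q ^ 2 * y' k + e * a' k - B.p k) - e * (a' k - B.v k) := by
      field_simp
      ring
    rw [e1]
    have h3 : |e * (a' k - B.v k)| ≤ q ^ 2 * (2 * B.u2) := by
      rw [abs_mul, abs_of_nonneg he]
      exact mul_le_mul he1 (hV k) (abs_nonneg _) hqq.le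
    refine (abs_sub _ _).trans ((add_le_add (hX k) h3).trans ?_)
    have h4 : 2 * (C * q) * B.u2 ≤ q ^ 2 * (2 * (C ^ 2 * q ^ 2) * B.u2) := by
      calc 2 * (C * q) * B.u2 ≤ 2 * (C ^ 2 * q ^ 2) * B.u2 := by gcongr
        _ = 1 * (2 * (C ^ 2 * q ^ 2) * B.u2) := (one_mul _).symm
        _ ≤ q ^ 2 * (2 * (C ^ 2 * q ^ 2) * B.u2) := by gcongr
    have h5 : q ^ 2 * (2 * (1 * B.u2)) ≤ q ^ 2 * (2 * ((C ^ 2 * q ^ 2) * B.u2)) := by gcongr
    have h6 : 0 ≤ q ^ 2 * ((C ^ 2 * q ^ 2) * B.u2) := by positivity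
    linarith
  · show |a' k - B.v k| ≤ 20 * (C ^ 2 * q ^ 2) * B.u2
    refine (hV k).trans ?_
    have h6 : 1 * B.u2 ≤ (C ^ 2 * q ^ 2) * B.u2 := by gcongr
    linarith
  · show |(upB B q e B.u1 B.u2).zz y' a' z'| ≤ 20 * (C ^ 2 * q ^ 2) * max (B.u2 ^ 2) (H / q ^ 2)
    apply div
    rw [upB_zz B y' a' z' hq0.ne']
    have hm : max (B.u2 ^ 2) H ≤ q ^ 2 * max (B.u2 ^ 2) (H / q ^ 2) := by
      refine max_le ?_ ?_
      · calc B.u2 ^ 2 = 1 * B.u2 ^ 2 := (one_mul _).symm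
          _ ≤ q ^ 2 * max (B.u2 ^ 2) (H / q ^ 2) := mul_le_mul hq2 (le_max_left _ _) (by positivity) hqq.le
      · calc H = q ^ 2 * (H / q ^ 2) := by field_simp
          _ ≤ q ^ 2 * max (B.u2 ^ 2) (H / q ^ 2) := mul_le_mul_of_nonneg_left (le_max_right _ _) hqq.le
    have h3 : |e * (∑ k, (a' k - B.v k) ^ 2) / 2| ≤ q ^ 2 * (4 * B.u2 ^ 2) := by
      have h4 : ∑ k, (a' k - B.v k) ^ 2 ≤ 8 * B.u2 ^ 2 := by
        rw [Fin.sum_univ_two]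
        have h5 : ∀ k, (a' k - B.v k) ^ 2 ≤ 4 * B.u2 ^ 2 := fun k => by
          have := sq_le_sq' (abs_le.1 (hV k)).1 (abs_le.1 (hV k)).2
          linarith
        linarith [h5 0, h5 1]
      have h6 : 0 ≤ ∑ k, (a' k - B.v k) ^ 2 := Finset.sum_nonneg fun k _ => sq_nonneg _
      rw [abs_of_nonneg (by positivity)]
      have h7 : e * (∑ k, (a' k - B.v k) ^ 2) ≤ q ^ 2 * (8 * B.u2 ^ 2) := mul_le_mul he1 h4 h6 hqq.le
      linarith
    refine (abs_sub _ _).trans ((add_le_add hZ h3).trans ?_)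
    have h4 : 6 * (C ^ 2 * q ^ 2) * max (B.u2 ^ 2) H ≤ 6 * (C ^ 2 * q ^ 2) * (q ^ 2 * max (B.u2 ^ 2) (H / q ^ 2)) := by
      gcongr
    have h5 : q ^ 2 * (4 * B.u2 ^ 2) ≤ 4 * (q ^ 2 * (1 * max (B.u2 ^ 2) (H / q ^ 2))) := by
      have : B.u2 ^ 2 ≤ max (B.u2 ^ 2) (H / q ^ 2) := le_max_left _ _
      have h6 : q ^ 2 * B.u2 ^ 2 ≤ q ^ 2 * max (B.u2 ^ 2) (H / q ^ 2) := by gcongr
      linarith
    have hm0 : 0 ≤ max (B.u2 ^ 2) (H / q ^ 2) := le_max_of_le_left (by positivity)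
    have h6 : q ^ 2 * (1 * max (B.u2 ^ 2) (H / q ^ 2)) ≤ q ^ 2 * ((C ^ 2 * q ^ 2) * max (B.u2 ^ 2) (H / q ^ 2)) := by gcongr
    have h7 : 0 ≤ q ^ 2 * ((C ^ 2 * q ^ 2) * max (B.u2 ^ 2) (H / q ^ 2)) := by positivity
    linarith
  · show |(upB B q e B.u1 B.u2).g0 y' a' z'| ≤ 20 * (C ^ 2 * q ^ 2) * B.u1
    apply div
    rw [upB_g0 B y' a' z' hq0.ne']
    have h3 : |e * B.g1 (fun k => q ^ 2 * y' k + e * a' k) a' (q ^ 2 * z' - e * (∑ k, a' k ^ 2) / 2)| ≤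
        q ^ 2 * (9 * (C ^ 2 * q ^ 2) * B.u1) := by
      rw [abs_mul, abs_of_nonneg he]
      exact mul_le_mul he1 h1 (abs_nonneg _) hqq.le
    refine (abs_sub _ _).trans ((add_le_add h0 h3).trans ?_)
    have h4 : 1 * ((C ^ 2 * q ^ 2) * B.u1) ≤ q ^ 2 * ((C ^ 2 * q ^ 2) * B.u1) := by gcongr
    have h5 : 0 ≤ q ^ 2 * ((C ^ 2 * q ^ 2) * B.u1) := by positivity
    linarith
  · show |(upB B q e B.u1 B.u2).g1 y' a' z'| ≤ 20 * (C ^ 2 * q ^ 2) * B.u1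
    rw [upB_g1 B y' a' z' hq0.ne']
    refine h1.trans ?_
    have h5 : 0 ≤ (C ^ 2 * q ^ 2) * B.u1 := by positivity
    linarith

end up

/-- numbers `C, q ≥ 1` -/
theorem cq3_327 {C q : ℝ} (hC : 1 ≤ C) (hq : 1 ≤ q) : 1 ≤ C ^ 2 * q ^ 3 ∧ C ≤ C ^ 2 * q ^ 3 ∧ C * q ≤ C ^ 2 * q ^ 3 ∧
    q ≤ C ^ 2 * q ^ 3 ∧ q ^ 2 ≤ C ^ 2 * q ^ 3 ∧ C * q ^ 2 ≤ C ^ 2 * q ^ 3 ∧ C * q ^ 3 ≤ C ^ 2 * q ^ 3 ∧
    C ^ 2 * q ^ 2 ≤ C ^ 2 * q ^ 3 := by
  have hC0 : 0 < C := by linarith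
  have hq0 : 0 < q := by linarith
  have h1 : C ≤ C ^ 2 := by nlinarith
  have h2 : q ≤ q ^ 2 := by nlinarith
  have h3 : q ^ 2 ≤ q ^ 3 := pow_le_pow_right₀ hq (by norm_num)
  have h4 : q ^ 3 ≤ C ^ 2 * q ^ 3 := le_mul_of_one_le_left (by positivity) (by linarith)
  have h5 : C ≤ C * q ^ 3 := le_mul_of_one_le_right (by positivity) (by linarith)
  have h6 : C * q ^ 3 ≤ C ^ 2 * q ^ 3 := by gcongr
  have h7 : C * q ^ 2 ≤ C * q ^ 3 := by gcongr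
  have h8 : C * q ≤ C * q ^ 2 := by gcongr
  have h9 : C ^ 2 * q ^ 2 ≤ C ^ 2 * q ^ 3 := by gcongr
  refine ⟨?_, ?_, ?_, ?_, ?_, ?_, ?_, ?_⟩ <;> linarith

section dn

variable {B : Cbx} {C q e r H : ℝ} {y a y' a' : Fin 2 → ℝ} {z z' : ℝ}

/-- the frame in the coordinates of the lower level -/
theorem dn_frame327 (hq : 1 ≤ q) (hr : 0 < r) (hH : 0 < H) (hB : B.ok (1 / 8) (r / q) (H / q ^ 2)) (he : 0 ≤ e)
    (he1 : e ≤ q ^ 2) (w1 w2 : ℝ) :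
    |(dnB B q e w1 w2).κ| * B.u2 ≤ 3 / 8 ∧ |(dnB B q e w1 w2).κ| * H ≤ 3 * q ^ 2 * B.u1 ∧
    q ^ 2 * |(dnB B q e w1 w2).α| * B.u2 ≤ 1 / 8 ∧ |(dnB B q e w1 w2).α| * H ≤ B.u1 := by
  have hq0 : 0 < q := by linarith
  have hqq : 0 < q ^ 2 := by positivity
  have hu1 : 0 < B.u1 := lt_of_lt_of_le (div_pos hr hq0) hB.r1
  have hu2 : 0 < B.u2 := lt_of_lt_of_le hu1 hB.u12
  have ha : |(dnB B q e w1 w2).α| = |B.α| / q ^ 2 := by
    show |B.α / q ^ 2| = _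
    rw [abs_div, abs_of_pos hqq]
  have hk : |(dnB B q e w1 w2).κ| ≤ |B.κ| + 2 * |B.α| := by
    show |B.κ + 2 * e * (B.α / q ^ 2)| ≤ _
    refine (abs_add_le _ _).trans (add_le_add le_rfl ?_)
    rw [abs_mul, abs_div, abs_of_pos hqq, abs_of_nonneg (by positivity : 0 ≤ 2 * e)]
    have : 2 * e * (|B.α| / q ^ 2) = 2 * |B.α| * (e / q ^ 2) := by ring
    rw [this]
    refine mul_le_of_le_one_right (by positivity) ?_
    rwa [div_le_one hqq]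
  refine ⟨?_, ?_, ?_, ?_⟩
  · calc |(dnB B q e w1 w2).κ| * B.u2 ≤ (|B.κ| + 2 * |B.α|) * B.u2 := mul_le_mul_of_nonneg_right hk hu2.le
      _ = |B.κ| * B.u2 + 2 * (|B.α| * B.u2) := by ring
      _ ≤ 3 / 8 := by linarith [hB.κ2, hB.α2]
  · calc |(dnB B q e w1 w2).κ| * H ≤ (|B.κ| + 2 * |B.α|) * H := mul_le_mul_of_nonneg_right hk hH.le
      _ = q ^ 2 * (|B.κ| * (H / q ^ 2) + 2 * (|B.α| * (H / q ^ 2))) := by field_simp
      _ ≤ q ^ 2 * (B.u1 + 2 * B.u1) := by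
          refine mul_le_mul_of_nonneg_left ?_ hqq.le
          linarith [hB.κH, hB.αH]
      _ = 3 * q ^ 2 * B.u1 := by ring
  · rw [ha]
    have : q ^ 2 * (|B.α| / q ^ 2) * B.u2 = |B.α| * B.u2 := by field_simp
    rw [this]
    exact hB.α2
  · rw [ha]
    have : |B.α| / q ^ 2 * H = |B.α| * (H / q ^ 2) := by ring
    rw [this]
    exact hB.αH

/-- bounds for the ray of the higher level in the coordinates of the lower level -/
theorem dn_ray327 (hq : 1 ≤ q) (hr : 0 < r) (hB : B.ok (1 / 8) (r / q) (H / q ^ 2))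
    (hin : B.In (H / q ^ 2) y' a' z') (he : 0 ≤ e) (he1 : e ≤ q ^ 2) (w1 w2 : ℝ) :
    (∀ k, |q ^ 2 * y' k + e * a' k - (dnB B q e w1 w2).p k| ≤ 2 * q ^ 2 * B.u2) ∧
    |(dnB B q e w1 w2).zz (fun k => q ^ 2 * y' k + e * a' k) a' (q ^ 2 * z' - e * (∑ k, a' k ^ 2) / 2)| ≤
      2 * q ^ 2 * max (B.u2 ^ 2) (H / q ^ 2) ∧
    |(dnB B q e w1 w2).g0 (fun k => q ^ 2 * y' k + e * a' k) a' (q ^ 2 * z' - e * (∑ k, a' k ^ 2) / 2)| ≤
      2 * q ^ 2 * B.u1 ∧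
    |(dnB B q e w1 w2).g1 (fun k => q ^ 2 * y' k + e * a' k) a' (q ^ 2 * z' - e * (∑ k, a' k ^ 2) / 2)| ≤ B.u1 := by
  have hq0 : 0 < q := by linarith
  have hqq : 0 < q ^ 2 := by positivity
  have hu1 : 0 < B.u1 := lt_of_lt_of_le (div_pos hr hq0) hB.r1
  have hu2 : 0 < B.u2 := lt_of_lt_of_le hu1 hB.u12
  obtain ⟨hy, ha, hz, h0, h1⟩ := (B.in_iff (H / q ^ 2) y' a' z').1 hin
  refine ⟨fun k => ?_, ?_, ?_, ?_⟩
  · show |q ^ 2 * y' k + e * a' k - (q ^ 2 * B.p k + e * B.v k)| ≤ 2 * q ^ 2 * B.u2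
    have e1 : q ^ 2 * y' k + e * a' k - (q ^ 2 * B.p k + e * B.v k) = q ^ 2 * (y' k - B.p k) + e * (a' k - B.v k) := by
      ring
    rw [e1]
    refine (abs_add_le _ _).trans ?_
    rw [abs_mul, abs_mul, abs_of_pos hqq, abs_of_nonneg he]
    have h2 := mul_le_mul_of_nonneg_left (hy k) hqq.le
    have h3 := mul_le_mul he1 (ha k) (abs_nonneg _) hqq.le
    linarith
  · rw [dnB_zz B y' a' z' hq0.ne']
    have h3 : |e * (∑ k, (a' k - B.v k) ^ 2) / 2| ≤ q ^ 2 * B.u2 ^ 2 := by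
      have h4 : ∑ k, (a' k - B.v k) ^ 2 ≤ 2 * B.u2 ^ 2 := by
        rw [Fin.sum_univ_two]
        have h5 : ∀ k, (a' k - B.v k) ^ 2 ≤ B.u2 ^ 2 := fun k =>
          sq_le_sq' (abs_le.1 (ha k)).1 (abs_le.1 (ha k)).2
        linarith [h5 0, h5 1]
      have h6 : 0 ≤ ∑ k, (a' k - B.v k) ^ 2 := Finset.sum_nonneg fun k _ => sq_nonneg _
      rw [abs_of_nonneg (by positivity)]
      have h7 : e * (∑ k, (a' k - B.v k) ^ 2) ≤ q ^ 2 * (2 * B.u2 ^ 2) := mul_le_mul he1 h4 h6 hqq.le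
      linarith
    refine (abs_add_le _ _).trans ?_
    rw [abs_mul, abs_of_pos hqq]
    have h8 := mul_le_mul_of_nonneg_left hz hqq.le
    have h9 : q ^ 2 * B.u2 ^ 2 ≤ q ^ 2 * max (B.u2 ^ 2) (H / q ^ 2) := mul_le_mul_of_nonneg_left (le_max_left _ _) hqq.le
    linarith
  · rw [dnB_g0 B y' a' z' hq0.ne']
    refine (abs_add_le _ _).trans ?_
    rw [abs_mul, abs_mul, abs_of_pos hqq, abs_of_nonneg he]
    have h2 := mul_le_mul_of_nonneg_left h0 hqq.le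
    have h3 := mul_le_mul he1 h1 (abs_nonneg _) hqq.le
    linarith
  · rw [dnB_g1 B y' a' z' hq0.ne']
    exact h1

/-- **(down)** the plank of the lower level in the transported box -/
theorem dn_wd327 (hC : 1 ≤ C) (hq : 1 ≤ q) (hr : 0 < r) (hH : 0 < H) (hB : B.ok (1 / 8) (r / q) (H / q ^ 2))
    (hin : B.In (H / q ^ 2) y' a' z') (hn : Nr C q e r H y a z y' a' z') {w1 w2 : ℝ} (hw1 : B.u1 ≤ w1)
    (hw2 : B.u2 ≤ w2) : Wd (dnB B q e w1 w2) (20 * (C ^ 2 * q ^ 3)) H y a z := by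
  have hC0 : 0 < C := by linarith
  have hq0 : 0 < q := by linarith
  have hqq : 0 < q ^ 2 := by positivity
  have hq2 : 1 ≤ q ^ 2 := one_le_pow₀ hq
  have hu1 : 0 < B.u1 := lt_of_lt_of_le (div_pos hr hq0) hB.r1
  have hu2 : 0 < B.u2 := lt_of_lt_of_le hu1 hB.u12
  obtain ⟨c1, c2, c3, c4, c5, c6, c7, c8⟩ := cq3_327 hC hq
  set P : ℝ := C ^ 2 * q ^ 3 with hP
  have hP0 : 0 < P := by linarith
  obtain ⟨f1, f2, f3, f4⟩ := dn_frame327 hq hr hH hB hn.e0 hn.e1 w1 w2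
  obtain ⟨r1, r2, r3, r4⟩ := dn_ray327 hq hr hB hin hn.e0 hn.e1 w1 w2
  set Bi := dnB B q e w1 w2 with hBi
  have ha' : ∀ k, |a' k - Bi.v k| ≤ B.u2 := hin.2.1
  have hrq : r ≤ q * B.u1 := by
    have := hB.r1
    rw [div_le_iff₀ hq0] at this
    linarith
  have hσ : ∀ k, |y k - (q ^ 2 * y' k + e * a' k)| ≤ C * q ^ 2 * B.u1 := fun k => by
    refine (hn.pos k).trans ?_
    calc C * q * r ≤ C * q * (q * B.u1) := by gcongr
      _ = C * q ^ 2 * B.u1 := by ring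
  have hρ : ∀ k, |a' k - a k| ≤ q * B.u1 := fun k => (hn.sl k).trans hrq
  have h12 := hB.u12
  have hCq2 : 1 * q ^ 2 ≤ C * q ^ 2 := by gcongr
  have hX2 : ∀ k, |q ^ 2 * y' k + e * a' k - Bi.p k| ≤ 3 * (C * q ^ 2) * B.u2 := fun k => (r1 k).trans (by
    have : 1 * q ^ 2 * B.u2 ≤ C * q ^ 2 * B.u2 := by gcongr
    have h3 : 0 ≤ C * q ^ 2 * B.u2 := by positivity
    linarith)
  have hX1 : ∀ k, |y k - Bi.p k| ≤ 3 * (C * q ^ 2) * B.u2 := fun k => by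
    have e1 : y k - Bi.p k = (q ^ 2 * y' k + e * a' k - Bi.p k) + (y k - (q ^ 2 * y' k + e * a' k)) := by ring
    rw [e1]
    have h3 := (abs_add_le (q ^ 2 * y' k + e * a' k - Bi.p k) (y k - (q ^ 2 * y' k + e * a' k))).trans
      (add_le_add (r1 k) (hσ k))
    have h4 : 1 * q ^ 2 * B.u2 ≤ C * q ^ 2 * B.u2 := by gcongr
    have h5 : C * q ^ 2 * B.u1 ≤ C * q ^ 2 * B.u2 := by gcongr
    linarith
  have hqu : B.u2 ≤ q * B.u2 := le_mul_of_one_le_left hu2.le hq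
  have hqu1 : q * B.u1 ≤ q * B.u2 := by gcongr
  have hV2 : ∀ k, |a' k - Bi.v k| ≤ 2 * q * B.u2 := fun k => (ha' k).trans (by linarith)
  have hV1 : ∀ k, |a k - Bi.v k| ≤ 2 * q * B.u2 := fun k => by
    have e1 : a k - Bi.v k = (a' k - Bi.v k) - (a' k - a k) := by ring
    rw [e1]
    have := (abs_sub (a' k - Bi.v k) (a' k - a k)).trans (add_le_add (ha' k) (hρ k))
    linarith
  obtain ⟨p1, p2, p3⟩ := pert327 Bi hρ hσ hn.ζ hX1 hX2 hV1 hV2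
  have t0 : ∀ x y : ℝ, |x| ≤ |y| + |y - x| := fun x y => by
    have := abs_sub y (y - x)
    rwa [sub_sub_cancel] at this
  have hm : max (B.u2 ^ 2) (H / q ^ 2) ≤ max (w2 ^ 2) H :=
    max_le_max (pow_le_pow_left₀ hu2.le hw2 2) (div_le_self hH.le hq2)
  have hm1 : B.u2 ^ 2 ≤ max (w2 ^ 2) H := (pow_le_pow_left₀ hu2.le hw2 2).trans (le_max_left _ _)
  have hm2 : H ≤ max (w2 ^ 2) H := le_max_right _ _
  have hm0 : 0 ≤ max (w2 ^ 2) H := le_trans (by positivity) hm1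
  have hu12 : B.u1 * B.u2 ≤ B.u2 ^ 2 := by rw [pow_two]; exact mul_le_mul_of_nonneg_right hB.u12 hu2.le
  have hw20 : 0 < w2 := hu2.trans_le hw2
  have hw10 : 0 < w1 := hu1.trans_le hw1
  have hPu : 0 ≤ P * B.u1 := by positivity
  refine ⟨fun k => ?_, fun k => ?_, ?_, ?_, ?_⟩
  · show |y k - Bi.p k| ≤ 20 * P * w2
    refine (hX1 k).trans ?_
    have h3 : C * q ^ 2 * B.u2 ≤ P * w2 := by gcongr
    have h4 : 0 ≤ P * w2 := by positivity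
    linarith
  · show |a k - Bi.v k| ≤ 20 * P * w2
    refine (hV1 k).trans ?_
    have h3 : q * B.u2 ≤ P * w2 := by gcongr
    have h4 : 0 ≤ P * w2 := by positivity
    linarith
  · show |Bi.zz y a z| ≤ 20 * P * max (w2 ^ 2) H
    refine (t0 _ _).trans ((add_le_add r2 p1).trans ?_)
    have h1 : q ^ 2 * max (B.u2 ^ 2) (H / q ^ 2) ≤ P * max (w2 ^ 2) H := by gcongr
    have h3 : C * H ≤ P * max (w2 ^ 2) H := by gcongr
    have h4 : C * q ^ 2 * B.u1 * (2 * q * B.u2) ≤ 2 * (P * max (w2 ^ 2) H) := by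
      have : C * q ^ 2 * B.u1 * (2 * q * B.u2) = 2 * (C * q ^ 3 * (B.u1 * B.u2)) := by ring
      rw [this]
      gcongr
      exact hu12.trans hm1
    have h5 : 0 ≤ P * max (w2 ^ 2) H := by positivity
    linarith
  · show |Bi.g0 y a z| ≤ 20 * P * w1
    refine (t0 _ _).trans ((add_le_add r3 p2).trans ?_)
    have h3 : |Bi.κ| * (C * H + 2 * (C * q ^ 2 * B.u1 * (2 * q * B.u2))) ≤ 5 * (P * B.u1) := by
      have e1 : |Bi.κ| * (C * H + 2 * (C * q ^ 2 * B.u1 * (2 * q * B.u2))) =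
          C * (|Bi.κ| * H) + 4 * (C * q ^ 3 * B.u1) * (|Bi.κ| * B.u2) := by ring
      rw [e1]
      have h4 : C * (|Bi.κ| * H) ≤ C * (3 * q ^ 2 * B.u1) := mul_le_mul_of_nonneg_left f2 hC0.le
      have h5 : 4 * (C * q ^ 3 * B.u1) * (|Bi.κ| * B.u2) ≤ 4 * (C * q ^ 3 * B.u1) * (3 / 8) :=
        mul_le_mul_of_nonneg_left f1 (by positivity)
      have h6 : C * q ^ 2 * B.u1 ≤ P * B.u1 := by gcongr
      have h7 : C * q ^ 3 * B.u1 ≤ P * B.u1 := by gcongr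
      linarith
    have h6 : |Bi.α| * (4 * (C * q ^ 2 * B.u1 * (3 * (C * q ^ 2) * B.u2))) ≤ 2 * (P * B.u1) := by
      have e1 : |Bi.α| * (4 * (C * q ^ 2 * B.u1 * (3 * (C * q ^ 2) * B.u2))) =
          12 * (C ^ 2 * q ^ 2 * B.u1) * (q ^ 2 * |Bi.α| * B.u2) := by ring
      rw [e1]
      have h5 : 12 * (C ^ 2 * q ^ 2 * B.u1) * (q ^ 2 * |Bi.α| * B.u2) ≤ 12 * (C ^ 2 * q ^ 2 * B.u1) * (1 / 8) :=
        mul_le_mul_of_nonneg_left f3 (by positivity)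
      have h7 : C ^ 2 * q ^ 2 * B.u1 ≤ P * B.u1 := by gcongr
      linarith
    have h7 : q ^ 2 * B.u1 ≤ P * B.u1 := by gcongr
    have h8 : C * q ^ 2 * B.u1 ≤ P * B.u1 := by gcongr
    have h9 : P * B.u1 ≤ P * w1 := by gcongr
    have h10 : 0 ≤ P * w1 := by
      have : 0 ≤ w1 := hu1.le.trans hw1
      positivity
    linarith
  · show |Bi.g1 y a z| ≤ 20 * P * w1
    refine (t0 _ _).trans ((add_le_add r4 p3).trans ?_)
    have h3 : |Bi.κ| * (2 * (q * B.u1 * (2 * q * B.u2))) ≤ 2 * (P * B.u1) := by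
      have e1 : |Bi.κ| * (2 * (q * B.u1 * (2 * q * B.u2))) = 4 * (q ^ 2 * B.u1) * (|Bi.κ| * B.u2) := by ring
      rw [e1]
      have h5 : 4 * (q ^ 2 * B.u1) * (|Bi.κ| * B.u2) ≤ 4 * (q ^ 2 * B.u1) * (3 / 8) :=
        mul_le_mul_of_nonneg_left f1 (by positivity)
      have h7 : q ^ 2 * B.u1 ≤ P * B.u1 := by gcongr
      linarith [mul_nonneg hP0.le hu1.le]
    have h4 : 2 * |Bi.α| * (C * H + 4 * (C * q ^ 2 * B.u1 * (2 * q * B.u2)) + 2 * (3 * (C * q ^ 2) * B.u2 * (q * B.u1))) ≤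
        6 * (P * B.u1) := by
      have e1 : 2 * |Bi.α| * (C * H + 4 * (C * q ^ 2 * B.u1 * (2 * q * B.u2)) +
          2 * (3 * (C * q ^ 2) * B.u2 * (q * B.u1))) =
          2 * (C * (|Bi.α| * H)) + 28 * (C * q * B.u1) * (q ^ 2 * |Bi.α| * B.u2) := by ring
      rw [e1]
      have h4 : C * (|Bi.α| * H) ≤ C * B.u1 := mul_le_mul_of_nonneg_left f4 hC0.le
      have h5 : 28 * (C * q * B.u1) * (q ^ 2 * |Bi.α| * B.u2) ≤ 28 * (C * q * B.u1) * (1 / 8) :=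
        mul_le_mul_of_nonneg_left f3 (by positivity)
      have h7 : C * q * B.u1 ≤ P * B.u1 := by gcongr
      have h8 : C * B.u1 ≤ P * B.u1 := by gcongr
      linarith
    have h7 : q * B.u1 ≤ P * B.u1 := by gcongr
    have h8 : 1 * B.u1 ≤ P * B.u1 := by gcongr
    have h9 : P * B.u1 ≤ P * w1 := by gcongr
    have h10 : 0 ≤ P * w1 := by
      have : 0 ≤ w1 := hu1.le.trans hw1
      positivity
    linarith

end dn

end Vale.Agent.P106.R.E
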