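import Vale.Agent.P106.R.H327.Tr

/-! # P106 / R / E5 : densities under change of the level (helper327)

`Dens.up327`, `Dens.dn327` and the asymptotic forms `e5Up_327`, `e5Dn_327`. -/

set_option autoImplicit false

namespace Vale.Agent.P106.R.E

open Filter Topology Finset Vale.Agent.P127 Vale.Agent.P127.Stk Vale.Agent.P127.U Vale.Agent.P127.U.Sys Vale.Agent.P106.R.C2
open Vale.Agent.P106.W (Cbx)

theorem sub_floor_mem327 {x : ℤ} {c R : ℝ} (h : |(x : ℝ) - c| ≤ R) :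
    x - ⌊c⌋ ∈ Icc (-(⌈R⌉₊ : ℤ)) ((⌈R⌉₊ : ℤ) + 1) := by
  have h1 := Nat.le_ceil R
  have h2 := Int.floor_le c
  have h3 := Int.lt_floor_add_one c
  have h4 := abs_le.1 h
  rw [mem_Icc]
  constructor
  · have : (((-(⌈R⌉₊ : ℤ)) : ℤ) : ℝ) ≤ ((x - ⌊c⌋ : ℤ) : ℝ) := by push_cast; linarith [h4.1]
    exact_mod_cast this
  · have : ((x - ⌊c⌋ : ℤ) : ℝ) < (((⌈R⌉₊ : ℤ) + 1 : ℤ) : ℝ) := by push_cast; linarith [h4.2]
    exact (Int.cast_lt.1 this).le

theorem card_Icc1_327 {R : ℝ} (hR : 1 ≤ R) : ((Icc (-(⌈R⌉₊ : ℤ)) ((⌈R⌉₊ : ℤ) + 1)).card : ℝ) ≤ 6 * R := by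
  rw [Int.card_Icc]
  have h1 : ((⌈R⌉₊ : ℤ) + 1 + 1 - -(⌈R⌉₊ : ℤ)) = ((2 * ⌈R⌉₊ + 2 : ℕ) : ℤ) := by push_cast; ring
  rw [h1, Int.toNat_natCast]
  push_cast
  have := Nat.ceil_lt_add_one (show 0 ≤ R by linarith)
  linarith

/-- counting of nodes -/
theorem card_nodes327 (U : Finset Nd) (T : ℤ) (A : Finset Z2) (X : Z2 → Fin 2 → ℝ) (c : Z2 → Z2 → ℝ) {R R' : ℝ}
    (hR : 1 ≤ R) (hR' : 1 ≤ R')
    (h : ∀ S ∈ U, S.T = T ∧ S.τ ∈ A ∧ (∀ k, |(S.o k : ℝ) - X S.τ k| ≤ R) ∧ |(S.w : ℝ) - c S.τ S.o| ≤ R') :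
    (U.card : ℝ) ≤ A.card * ((6 * R) ^ 2 * (6 * R')) := by
  classical
  set g : Nd → Z2 × ((ℤ × ℤ) × ℤ) := fun S =>
    (S.τ, ((S.o 0 - ⌊X S.τ 0⌋, S.o 1 - ⌊X S.τ 1⌋), S.w - ⌊c S.τ S.o⌋)) with hg
  set I := Icc (-(⌈R⌉₊ : ℤ)) ((⌈R⌉₊ : ℤ) + 1) with hI
  set I' := Icc (-(⌈R'⌉₊ : ℤ)) ((⌈R'⌉₊ : ℤ) + 1) with hI'
  set t : Finset (Z2 × ((ℤ × ℤ) × ℤ)) := A ×ˢ ((I ×ˢ I) ×ˢ I') with ht
  have h1 : Set.MapsTo g U t := by
    intro S hS
    obtain ⟨-, hA, ho, hw⟩ := h S hS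
    simp only [ht, hg, coe_product, Set.mem_prod, mem_coe]
    exact ⟨hA, ⟨sub_floor_mem327 (ho 0), sub_floor_mem327 (ho 1)⟩, sub_floor_mem327 hw⟩
  have h2 : Set.InjOn g U := by
    intro S hS S2 hS2 he
    simp only [hg, Prod.mk.injEq] at he
    obtain ⟨e1, ⟨e2, e3⟩, e4⟩ := he
    rw [e1] at e2 e3
    have ho : S.o = S2.o := by
      funext k
      fin_cases k
      · show S.o 0 = S2.o 0
        linarith
      · show S.o 1 = S2.o 1
        linarith
    rw [e1, ho] at e4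
    exact Nd.ext e1 ho ((h S hS).1.trans (h S2 hS2).1.symm) (by linarith)
  have h3 : (U.card : ℝ) ≤ (t.card : ℝ) := by exact_mod_cast card_le_card_of_injOn g h1 h2
  refine h3.trans ?_
  rw [ht, card_product, card_product, card_product]
  push_cast
  have h4 := card_Icc1_327 hR
  have h5 := card_Icc1_327 hR'
  rw [← hI] at h4
  rw [← hI'] at h5
  refine mul_le_mul_of_nonneg_left ?_ (Nat.cast_nonneg _)
  rw [pow_two]
  exact mul_le_mul (mul_le_mul h4 h4 (Nat.cast_nonneg _) (by positivity)) h5 (Nat.cast_nonneg _) (by positivity)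

theorem hh_pos327 (n h c : ℕ) : 0 < W.hh n h c := by unfold W.hh; positivity

theorem hh_add327 (n h i d : ℕ) : W.hh n h (i + d) = W.hh n h i / ((2:ℝ) ^ (d * n)) ^ 2 := by
  unfold W.hh
  have : (2:ℝ) ^ (2 * (i + d) * n) = 2 ^ (2 * i * n) * (2 ^ (d * n)) ^ 2 := by
    rw [← pow_mul, ← pow_add]; congr 1; ring
  rw [this]
  field_simp

theorem half_add327 (n i d : ℕ) : (1 / 2 : ℝ) ^ ((i + d) * n) = (1 / 2) ^ (i * n) / 2 ^ (d * n) := by
  rw [add_mul, pow_add, one_div, inv_pow, inv_pow]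
  field_simp

theorem okb_iff327 {s : Sl} {n c : ℕ} {B : Cbx} : Okb s n c c B ↔ B.ok (1 / 8) ((1 / 2) ^ (c * n)) (W.hh n s.h c) := by
  have hr' : (2:ℝ) ^ (c * n) / 2 ^ (2 * c * n) = (1 / 2) ^ (c * n) := by
    rw [one_div, inv_pow, div_eq_iff (by positivity), show 2 * c * n = c * n + c * n by ring, pow_add]
    field_simp
  unfold Okb
  rw [hr']

/-- **(up), geometric form** -/
theorem Dens.up327 {C lam : ℝ} (hC : 1 ≤ C) {s : Sl} {n i d : ℕ} {D D' : Set Nd}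
    (hD : ∀ S ∈ D, ∃ S' ∈ D', Gp C s n i d S S') (h : Dens s n (i + d) D' lam) (hlam : 0 ≤ lam) :
    Dens s n i D (cc327 * (20 * C ^ 2) ^ 21 * (216 * C ^ 3) * (2 ^ (d * n)) ^ 48 * lam) := by
  classical
  intro B T U hB hU
  rw [okb_iff327] at hB
  set r : ℝ := (1 / 2 : ℝ) ^ (i * n) with hr
  have hr0 : 0 < r := by positivity
  set H : ℝ := W.hh n s.h i with hH
  have hH0 : 0 < H := hh_pos327 _ _ _
  set q : ℝ := 2 ^ (d * n) with hq
  have hq1 : 1 ≤ q := one_le_pow₀ (by norm_num)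
  have hq0 : 0 < q := by linarith
  have hqq : 0 < q ^ 2 := by positivity
  have hq2 : 1 ≤ q ^ 2 := one_le_pow₀ hq1
  have hu1 : 0 < B.u1 := lt_of_lt_of_le hr0 hB.r1
  have hu2 : 0 < B.u2 := lt_of_lt_of_le hu1 hB.u12
  have hD' : ∀ S : Nd, ∃ S' : Nd, S ∈ D → S' ∈ D' ∧ Gp C s n i d S S' := by
    intro S
    by_cases hS : S ∈ D
    · obtain ⟨S', h2, h3⟩ := hD S hS
      exact ⟨S', fun _ => ⟨h2, h3⟩⟩
    · exact ⟨S, fun h2 => absurd h2 hS⟩
  choose f hf using hD'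
  set T' : ℤ := T / 2 ^ (2 * d * n) with hT'
  set e : ℝ := (T : ℝ) - (T' : ℝ) * q ^ 2 with he
  set M : ℝ := 20 * (C ^ 2 * q ^ 2) with hM
  obtain ⟨c1, c2, c3, c4⟩ := cq327 hC hq1
  have hM1 : 1 ≤ M := by rw [hM]; linarith
  have hMq : q ^ 2 ≤ M := by rw [hM]; linarith
  have hM3 : 3 ≤ M := by rw [hM]; linarith
  -- bounds of `e`
  have hfU : ∀ S ∈ U, (f S).T = T' ∧ Nr C q e r H (py n i S) (s i S.τ) (pz s n i S)
      (py n (i + d) (f S)) (s (i + d) (f S).τ) (pz s n (i + d) (f S)) := by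
    intro S hS
    obtain ⟨a1, a2, -⟩ := hU S hS
    obtain ⟨-, h3⟩ := hf S a1
    have h4 : (f S).T = T' := by rw [← h3.T, a2]
    refine ⟨h4, ?_⟩
    have h5 := h3.nr
    rw [a2, h4] at h5
    exact h5
  rcases U.eq_empty_or_nonempty with hemp | ⟨S1, hS1⟩
  · rw [hemp, card_empty, Nat.cast_zero]
    have hb : 0 ≤ bvol s n i B := W.Cbx.vol_nonneg B _ _ hu1.le hu2.le
    have hc : 0 ≤ cc327 := by unfold cc327; positivity
    positivity
  have he0 : 0 ≤ e := (hfU S1 hS1).2.e0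
  have he1 : e ≤ q ^ 2 := (hfU S1 hS1).2.e1
  have hκe : |B.κ - 2 * B.α * e| ≤ |B.κ| + 2 * (|B.α| * q ^ 2) := by
    refine (abs_sub _ _).trans (add_le_add le_rfl ?_)
    rw [abs_mul, abs_mul, abs_two, abs_of_nonneg he0, mul_assoc]
    gcongr
  have hHd : W.hh n s.h (i + d) = H / q ^ 2 := hh_add327 _ _ _ _
  -- the image
  have k1 : ((U.image f).card : ℝ) ≤ cc327 * M ^ 21 * (lam * bvol s n (i + d) (upB B q e B.u1 B.u2)) := by
    refine h.cov327 (upB B q e B.u1 B.u2) hM1 T' (U.image f) ?_ hB.u12 hB.u2 ?_ ?_ ?_ ?_ ?_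
    · rw [half_add327]
      refine le_trans ?_ hB.r1
      exact div_le_self hr0.le hq1
    · show |q ^ 2 * B.α| * B.u2 ≤ M
      rw [abs_mul, abs_of_pos hqq, mul_assoc]
      have := mul_le_mul_of_nonneg_left hB.α2 hqq.le
      linarith
    · show |B.κ - 2 * B.α * e| * B.u2 ≤ M
      have h3 := mul_le_mul_of_nonneg_right hκe hu2.le
      have h4 : (|B.κ| + 2 * (|B.α| * q ^ 2)) * B.u2 = |B.κ| * B.u2 + 2 * (q ^ 2 * (|B.α| * B.u2)) := by ring
      have h5 := mul_le_mul_of_nonneg_left hB.α2 hqq.le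
      linarith [hB.κ2]
    · show |q ^ 2 * B.α| * W.hh n s.h (i + d) ≤ M * B.u1
      rw [hHd, abs_mul, abs_of_pos hqq]
      have h3 : q ^ 2 * |B.α| * (H / q ^ 2) = |B.α| * H := by field_simp
      rw [h3]
      have h4 : 1 * B.u1 ≤ M * B.u1 := by gcongr
      linarith [hB.αH]
    · show |B.κ - 2 * B.α * e| * W.hh n s.h (i + d) ≤ M * B.u1
      rw [hHd]
      have h3 := mul_le_mul_of_nonneg_right hκe (show 0 ≤ H / q ^ 2 by positivity)
      have h4 : (|B.κ| + 2 * (|B.α| * q ^ 2)) * (H / q ^ 2) = (|B.κ| * H) / q ^ 2 + 2 * (|B.α| * H) := by field_simp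
      have h5 : (|B.κ| * H) / q ^ 2 ≤ |B.κ| * H := div_le_self (by positivity) hq2
      have h6 : 3 * B.u1 ≤ M * B.u1 := by gcongr
      linarith [hB.κH, hB.αH]
    · intro S' hS'
      obtain ⟨S, hS, rfl⟩ := mem_image.1 hS'
      obtain ⟨a1, a2, a3⟩ := hU S hS
      obtain ⟨h4, h5⟩ := hfU S hS
      refine ⟨(hf S a1).1, h4, ?_⟩
      rw [hHd]
      exact up_wd327 hC hq1 hr0 hH0 hB a3 h5
  -- the volume
  have k2 : bvol s n (i + d) (upB B q e B.u1 B.u2) ≤ q ^ 4 * bvol s n i B := by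
    show B.u1 * B.u2 / ((1 / 2 : ℝ) ^ ((i + d) * n)) ^ 2 * max 1 (B.u2 ^ 2 / W.hh n s.h (i + d)) ≤
      q ^ 4 * (B.u1 * B.u2 / r ^ 2 * max 1 (B.u2 ^ 2 / H))
    rw [half_add327, hHd, ← hr, ← hq]
    have h3 : B.u1 * B.u2 / (r / q) ^ 2 = q ^ 2 * (B.u1 * B.u2 / r ^ 2) := by field_simp
    have h4 : max 1 (B.u2 ^ 2 / (H / q ^ 2)) ≤ q ^ 2 * max 1 (B.u2 ^ 2 / H) := by
      have h5 : (0:ℝ) ≤ max 1 (B.u2 ^ 2 / H) := le_max_of_le_left zero_le_one
      refine max_le ?_ ?_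
      · calc (1:ℝ) = 1 * 1 := by ring
          _ ≤ q ^ 2 * max 1 (B.u2 ^ 2 / H) := mul_le_mul hq2 (le_max_left _ _) zero_le_one hqq.le
      · have h6 : B.u2 ^ 2 / (H / q ^ 2) = q ^ 2 * (B.u2 ^ 2 / H) := by field_simp
        rw [h6]
        exact mul_le_mul_of_nonneg_left (le_max_right _ _) hqq.le
    rw [h3]
    calc q ^ 2 * (B.u1 * B.u2 / r ^ 2) * max 1 (B.u2 ^ 2 / (H / q ^ 2)) ≤
        q ^ 2 * (B.u1 * B.u2 / r ^ 2) * (q ^ 2 * max 1 (B.u2 ^ 2 / H)) := by gcongr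
      _ = _ := by ring
  -- the fibres
  have hrr : r = 1 / 2 ^ (i * n) := by rw [hr, one_div, inv_pow, one_div]
  have k3 : ∀ b ∈ U.image f, ((U.filter fun S => f S = b).card : ℝ) ≤ (6 * (C * q)) ^ 2 * (6 * C) := by
    intro b _
    have h3 := card_nodes327 (U.filter fun S => f S = b) T {fun k => b.τ k / 2 ^ (d * n)}
      (fun _ k => 2 ^ (i * n) * (q ^ 2 * py n (i + d) b k + e * s (i + d) b.τ k))
      (fun τ o => (q ^ 2 * pz s n (i + d) b - e * (∑ k, s (i + d) b.τ k ^ 2) / 2 -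
        ∑ k, (o k : ℝ) / 2 ^ (i * n) * (s i τ k - s (i + d) b.τ k) + (T : ℝ) * (∑ k, s i τ k ^ 2) / 2) / H)
      (R := C * q) (R' := C) (by nlinarith) hC (by
        intro S hS
        obtain ⟨g1, g2⟩ := mem_filter.1 hS
        obtain ⟨a1, a2, -⟩ := hU S g1
        obtain ⟨-, h5⟩ := hfU S g1
        have h6 := (hf S a1).2
        rw [g2] at h5 h6
        refine ⟨a2, ?_, fun k => ?_, ?_⟩
        · rw [mem_singleton]
          funext k
          exact (h6.τ k).symm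
        · have h7 := h5.pos k
          have h8 : (S.o k : ℝ) - 2 ^ (i * n) * (q ^ 2 * py n (i + d) b k + e * s (i + d) b.τ k) =
              2 ^ (i * n) * (py n i S k - (q ^ 2 * py n (i + d) b k + e * s (i + d) b.τ k)) := by
            unfold py
            field_simp
          rw [h8, abs_mul, abs_of_pos (by positivity : (0:ℝ) < 2 ^ (i * n))]
          have h9 := mul_le_mul_of_nonneg_left h7 (show (0:ℝ) ≤ 2 ^ (i * n) by positivity)
          refine h9.trans (le_of_eq ?_)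
          rw [hrr]
          field_simp
        · have h7 := h5.ζ
          have h8 : (S.w : ℝ) - (q ^ 2 * pz s n (i + d) b - e * (∑ k, s (i + d) b.τ k ^ 2) / 2 -
              ∑ k, (S.o k : ℝ) / 2 ^ (i * n) * (s i S.τ k - s (i + d) b.τ k) + (T : ℝ) * (∑ k, s i S.τ k ^ 2) / 2) / H =
              (pz s n i S + ∑ k, py n i S k * (s i S.τ k - s (i + d) b.τ k) -
                (q ^ 2 * pz s n (i + d) b - e * (∑ k, s (i + d) b.τ k ^ 2) / 2)) / H := by
            have h9 : pz s n i S = (S.w : ℝ) * H - (T : ℝ) * (∑ k, s i S.τ k ^ 2) / 2 := by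
              rw [hH, ← a2]
              unfold pz W.hh
              ring
            rw [h9]
            unfold py
            field_simp
            ring
          rw [h8, abs_div, abs_of_pos hH0, div_le_iff₀ hH0]
          exact h7)
    rw [card_singleton, Nat.cast_one, one_mul] at h3
    exact h3
  have hsum : (U.card : ℝ) = ∑ b ∈ U.image f, ((U.filter fun S => f S = b).card : ℝ) := by
    have := card_eq_sum_card_image f U
    exact_mod_cast this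
  have hc : 0 ≤ cc327 := by unfold cc327; positivity
  rw [hsum]
  refine (sum_le_sum k3).trans ?_
  rw [sum_const, nsmul_eq_mul]
  calc ((U.image f).card : ℝ) * ((6 * (C * q)) ^ 2 * (6 * C)) ≤
      cc327 * M ^ 21 * (lam * (q ^ 4 * bvol s n i B)) * ((6 * (C * q)) ^ 2 * (6 * C)) := by
        refine mul_le_mul_of_nonneg_right (k1.trans ?_) (by positivity)
        gcongr
    _ = cc327 * (20 * C ^ 2) ^ 21 * (216 * C ^ 3) * q ^ 48 * lam * bvol s n i B := by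
        rw [hM]; ring

theorem ico_div327 {x y : ℤ} {m : ℕ} (h : x / 2 ^ m = y) : x ∈ Ico (2 ^ m * y) (2 ^ m * (y + 1)) := by
  have h2 : (0:ℤ) < 2 ^ m := by positivity
  rw [mem_Ico]
  have h3 := Int.emod_add_mul_ediv x (2 ^ m)
  have h4 := Int.emod_nonneg x h2.ne'
  have h5 := Int.emod_lt_of_pos x h2
  rw [h] at h3
  constructor <;> nlinarith

theorem card_ico327 (y : ℤ) (m : ℕ) : (Ico (2 ^ m * y) (2 ^ m * (y + 1))).card = 2 ^ m := by
  rw [Int.card_Ico]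
  have : (2:ℤ) ^ m * (y + 1) - 2 ^ m * y = ((2 ^ m : ℕ) : ℤ) := by push_cast; ring
  rw [this, Int.toNat_natCast]

section dn

variable {C lam : ℝ} {s : Sl} {n i d : ℕ}

/-- number of planks of the higher level for one plank of the lower level -/
theorem dn_fib327 (hC : 1 ≤ C) (S : Nd) (T : ℤ) (U : Finset Nd) (hU : ∀ S' ∈ U, S'.T = T ∧ Gp C s n i d S S') :
    (U.card : ℝ) ≤ (2 ^ (d * n)) ^ 2 * (216 * C ^ 3) := by
  set r : ℝ := (1 / 2 : ℝ) ^ (i * n) with hr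
  have hr0 : 0 < r := by positivity
  set H : ℝ := W.hh n s.h i with hH
  have hH0 : 0 < H := hh_pos327 _ _ _
  set q : ℝ := 2 ^ (d * n) with hq
  have hq0 : 0 < q := by positivity
  set e : ℝ := (S.T : ℝ) - (T : ℝ) * q ^ 2 with he
  have hrr : r = 1 / 2 ^ (i * n) := by rw [hr, one_div, inv_pow, one_div]
  have h3 := card_nodes327 U T
    (Fintype.piFinset fun k => Ico (2 ^ (d * n) * S.τ k) (2 ^ (d * n) * (S.τ k + 1)))
    (fun τ' k => (py n i S k - e * s (i + d) τ' k) / (q * r))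
    (fun τ' _ => (pz s n i S + ∑ k, py n i S k * (s i S.τ k - s (i + d) τ' k) + e * (∑ k, s (i + d) τ' k ^ 2) / 2 +
      q ^ 2 * (T : ℝ) * (∑ k, s (i + d) τ' k ^ 2) / 2) / H) (R := C) (R' := C) hC hC (by
      intro S' hS'
      obtain ⟨a1, a2⟩ := hU S' hS'
      have h5 := a2.nr
      rw [a1] at h5
      refine ⟨a1, ?_, fun k => ?_, ?_⟩
      · rw [Fintype.mem_piFinset]
        exact fun k => ico_div327 (a2.τ k)
      · have h7 := h5.pos k
        have h8 : (S'.o k : ℝ) - (py n i S k - e * s (i + d) S'.τ k) / (q * r) =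
            -(py n i S k - (q ^ 2 * py n (i + d) S' k + e * s (i + d) S'.τ k)) / (q * r) := by
          have h9 : py n (i + d) S' k = (S'.o k : ℝ) * r / q := by
            unfold py
            rw [hrr, hq, add_mul, pow_add]
            field_simp
          rw [h9]
          field_simp
          ring
        rw [h8, abs_div, abs_neg, abs_of_pos (by positivity : (0:ℝ) < q * r), div_le_iff₀ (by positivity)]
        refine h7.trans (le_of_eq ?_)
        ring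
      · have h7 := h5.ζ
        have h8 : (S'.w : ℝ) - (pz s n i S + ∑ k, py n i S k * (s i S.τ k - s (i + d) S'.τ k) +
            e * (∑ k, s (i + d) S'.τ k ^ 2) / 2 + q ^ 2 * (T : ℝ) * (∑ k, s (i + d) S'.τ k ^ 2) / 2) / H =
            -(pz s n i S + ∑ k, py n i S k * (s i S.τ k - s (i + d) S'.τ k) -
              (q ^ 2 * pz s n (i + d) S' - e * (∑ k, s (i + d) S'.τ k ^ 2) / 2)) / H := by
          have h9 : q ^ 2 * pz s n (i + d) S' = (S'.w : ℝ) * H - q ^ 2 * (T : ℝ) * (∑ k, s (i + d) S'.τ k ^ 2) / 2 := by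
            rw [← a1]
            unfold pz
            have h10 : (S'.w : ℝ) * 2 ^ (s.h * n) / 2 ^ (2 * (i + d) * n) = (S'.w : ℝ) * W.hh n s.h (i + d) := by
              unfold W.hh; ring
            rw [h10, hh_add327, ← hH, ← hq]
            field_simp
          rw [h9]
          field_simp
          ring
        rw [h8, abs_div, abs_neg, abs_of_pos hH0, div_le_iff₀ hH0]
        exact h7)
  refine h3.trans (le_of_eq ?_)
  rw [Fintype.card_piFinset, Fin.prod_univ_two, card_ico327, card_ico327, hq]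
  push_cast
  ring

/-- the volume of the transported box -/
theorem dn_vol327 (B : Cbx) {q e : ℝ} (hq : 1 ≤ q) (hu1 : 0 < B.u1) (hu2 : 0 < B.u2) {r H : ℝ} (hr : 0 < r) (hH : 0 < H) :
    (dnB B q e (min 1 (q * B.u1)) (min 1 (q * B.u2))).vol r H ≤ B.vol (r / q) (H / q ^ 2) := by
  have hq0 : 0 < q := by linarith
  show min 1 (q * B.u1) * min 1 (q * B.u2) / r ^ 2 * max 1 (min 1 (q * B.u2) ^ 2 / H) ≤
    B.u1 * B.u2 / (r / q) ^ 2 * max 1 (B.u2 ^ 2 / (H / q ^ 2))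
  have h1 : min 1 (q * B.u1) ≤ q * B.u1 := min_le_right _ _
  have h2 : min 1 (q * B.u2) ≤ q * B.u2 := min_le_right _ _
  have h3 : 0 ≤ min 1 (q * B.u1) := le_min zero_le_one (by positivity)
  have h4 : 0 ≤ min 1 (q * B.u2) := le_min zero_le_one (by positivity)
  have e1 : B.u1 * B.u2 / (r / q) ^ 2 = (q * B.u1) * (q * B.u2) / r ^ 2 := by field_simp
  have e2 : B.u2 ^ 2 / (H / q ^ 2) = (q * B.u2) ^ 2 / H := by field_simp
  rw [e1, e2]
  gcongr

/-- **(down), geometric form** -/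
theorem Dens.dn327 (hC : 1 ≤ C) (R : Set (Nd × Nd)) (hR : ∀ x ∈ R, Gp C s n i d x.1 x.2) (hlam : 0 ≤ lam)
    (hD : Dens s n i {S | ∃ S', (S, S') ∈ R} lam) :
    Dens s n (i + d) {S' | ∃ S, (S, S') ∈ R} (216 * C ^ 3 * (cc327 * (20 * C ^ 2) ^ 21) * (2 ^ (d * n)) ^ 67 * lam) := by
  classical
  intro B T U hB hU
  rw [okb_iff327, half_add327, hh_add327] at hB
  set r : ℝ := (1 / 2 : ℝ) ^ (i * n) with hr
  have hr0 : 0 < r := by positivity
  set H : ℝ := W.hh n s.h i with hH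
  have hH0 : 0 < H := hh_pos327 _ _ _
  set q : ℝ := 2 ^ (d * n) with hq
  have hq1 : 1 ≤ q := one_le_pow₀ (by norm_num)
  have hq0 : 0 < q := by linarith
  have hqq : 0 < q ^ 2 := by positivity
  have hq2 : 1 ≤ q ^ 2 := one_le_pow₀ hq1
  have hu1 : 0 < B.u1 := lt_of_lt_of_le (div_pos hr0 hq0) hB.r1
  have hu2 : 0 < B.u2 := lt_of_lt_of_le hu1 hB.u12
  have hc : 0 ≤ cc327 := by unfold cc327; positivity
  set M : ℝ := 20 * (C ^ 2 * q ^ 3) with hM
  obtain ⟨c1, c2, c3, c4, c5, c6, c7, c8⟩ := cq3_327 hC hq1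
  have hM1 : 1 ≤ M := by rw [hM]; linarith
  have hMq : q ≤ M := by rw [hM]; linarith
  have hMq2 : 3 * q ^ 2 ≤ M := by rw [hM]; linarith
  set w1 : ℝ := min 1 (q * B.u1) with hw1
  set w2 : ℝ := min 1 (q * B.u2) with hw2
  have hu1w : B.u1 ≤ w1 := le_min (hB.u12.trans hB.u2) (le_mul_of_one_le_left hu1.le hq1)
  have hu2w : B.u2 ≤ w2 := le_min hB.u2 (le_mul_of_one_le_left hu2.le hq1)
  have hw12 : w1 ≤ w2 := min_le_min le_rfl (mul_le_mul_of_nonneg_left hB.u12 hq0.le)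
  have hw21 : w2 ≤ 1 := min_le_left _ _
  have hw2q : w2 ≤ q * B.u2 := min_le_right _ _
  have hrw1 : r ≤ w1 := by
    refine le_min (pow_le_one₀ (by norm_num) (by norm_num)) ?_
    have := hB.r1
    rw [div_le_iff₀ hq0] at this
    linarith
  -- choice of the planks of level `i`
  have hch : ∀ S' ∈ U, ∃ S, (S, S') ∈ R := fun S' hS' => (hU S' hS').1
  choose! g hg using hch
  have hfib : ∀ S ∈ U.image g, ((U.filter fun x => g x = S).card : ℝ) ≤ q ^ 2 * (216 * C ^ 3) := by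
    intro S _
    refine dn_fib327 (s := s) (i := i) hC S T _ fun S' hS' => ?_
    rw [mem_filter] at hS'
    have := hR _ (hg S' hS'.1)
    rw [hS'.2] at this
    exact ⟨(hU S' hS'.1).2.1, this⟩
  set V := U.image g with hV
  have hVT : ∀ S ∈ V, S.T ∈ Ico (2 ^ (2 * d * n) * T) (2 ^ (2 * d * n) * (T + 1)) := by
    intro S hS
    obtain ⟨S', hS', rfl⟩ := mem_image.1 hS
    have h3 := (hR _ (hg S' hS')).T
    rw [(hU S' hS').2.1] at h3
    exact ico_div327 h3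
  have hqT : (2:ℝ) ^ (2 * d * n) = q ^ 2 := by rw [hq, ← pow_mul]; congr 1; ring
  have hVf : ∀ t ∈ Ico (2 ^ (2 * d * n) * T) (2 ^ (2 * d * n) * (T + 1)),
      ((V.filter fun S => S.T = t).card : ℝ) ≤ cc327 * M ^ 21 * (lam * bvol s n (i + d) B) := by
    intro t ht
    rw [mem_Ico] at ht
    have ht0 : (2:ℝ) ^ (2 * d * n) * T ≤ t := by exact_mod_cast ht.1
    have ht1 : (t:ℝ) ≤ (2:ℝ) ^ (2 * d * n) * (T + 1) := by exact_mod_cast ht.2.le
    rw [hqT] at ht0 ht1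
    set e : ℝ := (t : ℝ) - (T : ℝ) * q ^ 2 with he
    have he0 : 0 ≤ e := by rw [he]; linarith
    have he1 : e ≤ q ^ 2 := by rw [he]; linarith
    obtain ⟨f1, f2, f3, f4⟩ := dn_frame327 hq1 hr0 hH0 hB he0 he1 w1 w2
    have k1 := hD.cov327 (dnB B q e w1 w2) hM1 t (V.filter fun S => S.T = t) hrw1 hw12 hw21 (by
        show |(dnB B q e w1 w2).α| * w2 ≤ M
        have h3 : |(dnB B q e w1 w2).α| * w2 ≤ |(dnB B q e w1 w2).α| * (q * B.u2) := by gcongr
        have h4 : |(dnB B q e w1 w2).α| * (q * B.u2) ≤ q ^ 2 * |(dnB B q e w1 w2).α| * B.u2 := by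
          have h5 : q * (|(dnB B q e w1 w2).α| * B.u2) ≤ q ^ 2 * (|(dnB B q e w1 w2).α| * B.u2) := by
            refine mul_le_mul_of_nonneg_right ?_ (by positivity)
            nlinarith
          linarith
        linarith) (by
        show |(dnB B q e w1 w2).κ| * w2 ≤ M
        have h3 : |(dnB B q e w1 w2).κ| * w2 ≤ |(dnB B q e w1 w2).κ| * (q * B.u2) := by gcongr
        have h4 : q * (|(dnB B q e w1 w2).κ| * B.u2) ≤ q * (3 / 8) := by gcongr
        linarith) (by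
        show |(dnB B q e w1 w2).α| * H ≤ M * w1
        have h3 : 1 * B.u1 ≤ M * w1 := by gcongr
        linarith) (by
        show |(dnB B q e w1 w2).κ| * H ≤ M * w1
        have h3 : 3 * q ^ 2 * B.u1 ≤ M * w1 := by gcongr
        linarith) (by
        intro S hS
        rw [mem_filter] at hS
        obtain ⟨S', hS', hSS⟩ := mem_image.1 hS.1
        have hr' := hg S' hS'
        have hgp := hR _ hr'
        rw [hSS] at hr' hgp
        obtain ⟨-, hS'T, p1⟩ := hU S' hS'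
        refine ⟨⟨S', hr'⟩, hS.2, ?_⟩
        have h3 := hgp.nr
        simp only at h3
        rw [hS.2, hS'T] at h3
        have h4 : B.In (H / q ^ 2) (py n (i + d) S') (s (i + d) S'.τ) (pz s n (i + d) S') := by
          rw [hH, hq, ← hh_add327]
          exact p1
        exact dn_wd327 hC hq1 hr0 hH0 hB h4 h3 hu1w hu2w)
    refine k1.trans ?_
    have k2 : bvol s n i (dnB B q e w1 w2) ≤ bvol s n (i + d) B := by
      have h5 := dn_vol327 B (e := e) hq1 hu1 hu2 hr0 hH0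
      have h6 : bvol s n (i + d) B = B.vol (r / q) (H / q ^ 2) := by
        unfold bvol
        rw [half_add327, hh_add327]
      rw [h6]
      exact h5
    gcongr
  have hb : 0 ≤ bvol s n (i + d) B := W.Cbx.vol_nonneg B _ _ hu1.le hu2.le
  have hVc : (V.card : ℝ) ≤ q ^ 2 * (cc327 * M ^ 21 * (lam * bvol s n (i + d) B)) := by
    have h3 : V.card = ∑ t ∈ Ico (2 ^ (2 * d * n) * T) (2 ^ (2 * d * n) * (T + 1)),
      (V.filter fun S => S.T = t).card := card_eq_sum_card_fiberwise hVT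
    calc (V.card : ℝ) = ∑ t ∈ Ico (2 ^ (2 * d * n) * T) (2 ^ (2 * d * n) * (T + 1)),
          ((V.filter fun S => S.T = t).card : ℝ) := by rw [h3]; push_cast; rfl
      _ ≤ ∑ _t ∈ Ico (2 ^ (2 * d * n) * T) (2 ^ (2 * d * n) * (T + 1)),
          cc327 * M ^ 21 * (lam * bvol s n (i + d) B) := sum_le_sum hVf
      _ = _ := by
        rw [sum_const, nsmul_eq_mul, card_ico327]
        push_cast
        rw [hqT]
  have hsum : (U.card : ℝ) = ∑ b ∈ U.image g, ((U.filter fun S => g S = b).card : ℝ) := by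
    have := card_eq_sum_card_image g U
    exact_mod_cast this
  rw [hsum]
  refine (sum_le_sum hfib).trans ?_
  rw [sum_const, nsmul_eq_mul]
  calc (V.card : ℝ) * (q ^ 2 * (216 * C ^ 3)) ≤
      q ^ 2 * (cc327 * M ^ 21 * (lam * bvol s n (i + d) B)) * (q ^ 2 * (216 * C ^ 3)) :=
        mul_le_mul_of_nonneg_right hVc (by positivity)
    _ = 216 * C ^ 3 * (cc327 * (20 * C ^ 2) ^ 21) * q ^ 67 * lam * bvol s n (i + d) B := by
        rw [hM]; ring

end dn

theorem two_pow327 (S : Sys) {ε : ℝ} (hε : 0 < ε) (C : ℝ) :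
    ∀ᶠ i in (uf : Filter ℕ), C ≤ (2 : ℝ) ^ (ε * S.L i) := by
  have h1 : Tendsto (fun i => ε * (S.L i : ℝ)) (uf : Filter ℕ) atTop :=
    (tendsto_natCast_atTop_atTop.comp S.Ltop).const_mul_atTop hε
  have h2 : Tendsto (fun x : ℝ => (2 : ℝ) ^ x) atTop atTop := tendsto_rpow_atTop_of_base_gt_one 2 (by norm_num)
  exact (h2.comp h1).eventually_ge_atTop C

section asym

variable {K : ℕ} (F : Flg K)

/-- absorption of the constants -/
theorem absorb327 {d m : ℕ} (hK : 1 ≤ K) (hm : m ≤ 100) {ι : ℕ} {B e ε : ℝ} (hB : B ≤ (2:ℝ) ^ (ε / 2 * F.S.L ι)) :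
    B * ((2:ℝ) ^ (d * F.n ι)) ^ m * (2:ℝ) ^ ((e + ε / 2) * F.S.L ι) ≤ (2:ℝ) ^ ((e + 100 * (d:ℝ) / K + ε) * F.S.L ι) := by
  have hK0 : (0:ℝ) < K := by exact_mod_cast hK
  have hL : (F.S.L ι : ℝ) = K * F.n ι := by rw [F.L_eq ι]; push_cast; ring
  have e1 : ((2:ℝ) ^ (d * F.n ι)) ^ m ≤ (2:ℝ) ^ (100 * (d:ℝ) / K * F.S.L ι) := by
    rw [hL, ← pow_mul, ← Real.rpow_natCast]
    refine Real.rpow_le_rpow_of_exponent_le (by norm_num) ?_
    push_cast
    have h5 : 100 * (d:ℝ) / K * (K * F.n ι) = (d * F.n ι) * 100 := by field_simp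
    rw [h5]
    have h6 : (m:ℝ) ≤ 100 := by exact_mod_cast hm
    gcongr
  have e2 : (e + 100 * (d:ℝ) / K + ε) * F.S.L ι =
      ε / 2 * F.S.L ι + 100 * (d:ℝ) / K * F.S.L ι + (e + ε / 2) * F.S.L ι := by ring
  rw [e2, Real.rpow_add (by norm_num), Real.rpow_add (by norm_num)]
  gcongr

/-- **(up)** a bound of the densities at the level `j` gives a bound at the lower level `i` -/
theorem e5Up_327 (i j : ℕ) (e : ℝ) (hK : 1 ≤ K) (hij : i ≤ j) (hj : j ≤ K) (h : ExU F j e) :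
    ExU F i (e + 100 * ((j:ℝ) - i) / K) := by
  obtain ⟨d, rfl⟩ := Nat.exists_eq_add_of_le hij
  obtain ⟨C, hC, hg⟩ := gp327 F
  have ed : ((i + d : ℕ) : ℝ) - i = d := by push_cast; ring
  rw [ed]
  intro ε hε
  filter_upwards [h (ε / 2) (by positivity), two_pow327 F.S (half_pos hε)
    (cc327 * (20 * C ^ 2) ^ 21 * (216 * C ^ 3))] with ι h1 h2
  have h3 := Dens.up327 (n := F.n ι) (s := F.s ι) (i := i) (d := d)
    (D := {S | ∃ ω, 0 < (F.S.P ι).w ω ∧ F.N i ι ω = S}) hC (by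
      rintro S ⟨ω, hω, rfl⟩
      exact ⟨_, ⟨ω, hω, rfl⟩, hg ι ω hω i d hj⟩) h1 (by positivity)
  intro B T U hB hU
  refine (h3 B T U hB hU).trans ?_
  have hu1 : 0 < B.u1 := lt_of_lt_of_le (by positivity) (okb_iff327.1 hB).r1
  have hu2 : 0 < B.u2 := lt_of_lt_of_le hu1 hB.u12
  have hb : 0 ≤ bvol (F.s ι) (F.n ι) i B := W.Cbx.vol_nonneg B _ _ hu1.le hu2.le
  exact mul_le_mul_of_nonneg_right (absorb327 F hK (by norm_num) h2) hb

/-- **(down)** a bound of the densities at the level `i` gives a bound at the higher level `j` -/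
theorem e5Dn_327 (i j : ℕ) (e : ℝ) (hK : 1 ≤ K) (hij : i ≤ j) (hj : j ≤ K) (h : ExU F i e) :
    ExU F j (e + 100 * ((j:ℝ) - i) / K) := by
  obtain ⟨d, rfl⟩ := Nat.exists_eq_add_of_le hij
  obtain ⟨C, hC, hg⟩ := gp327 F
  have ed : ((i + d : ℕ) : ℝ) - i = d := by push_cast; ring
  rw [ed]
  intro ε hε
  filter_upwards [h (ε / 2) (by positivity), two_pow327 F.S (half_pos hε)
    (216 * C ^ 3 * (cc327 * (20 * C ^ 2) ^ 21))] with ι h1 h2
  set R : Set (Nd × Nd) := {x | ∃ ω, 0 < (F.S.P ι).w ω ∧ x = (F.N i ι ω, F.N (i + d) ι ω)} with hR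
  have hRgp : ∀ x ∈ R, Gp C (F.s ι) (F.n ι) i d x.1 x.2 := by
    rintro x ⟨ω, hω, rfl⟩
    exact hg ι ω hω i d hj
  have hDi : {S | ∃ S', (S, S') ∈ R} = {S | ∃ ω, 0 < (F.S.P ι).w ω ∧ F.N i ι ω = S} := by
    ext S
    constructor
    · rintro ⟨S', ω, hω, h⟩
      exact ⟨ω, hω, (congrArg Prod.fst h).symm⟩
    · rintro ⟨ω, hω, rfl⟩
      exact ⟨_, ω, hω, rfl⟩
  have hDj : {S' | ∃ S, (S, S') ∈ R} = {S | ∃ ω, 0 < (F.S.P ι).w ω ∧ F.N (i + d) ι ω = S} := by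
    ext S
    constructor
    · rintro ⟨S', ω, hω, h⟩
      exact ⟨ω, hω, (congrArg Prod.snd h).symm⟩
    · rintro ⟨ω, hω, rfl⟩
      exact ⟨_, ω, hω, rfl⟩
  have h3 := Dens.dn327 hC R hRgp (lam := (2:ℝ) ^ ((e + ε / 2) * F.S.L ι)) (by positivity) (by rw [hDi]; exact h1)
  rw [hDj] at h3
  intro B T U hB hU
  refine (h3 B T U hB hU).trans ?_
  have hu1 : 0 < B.u1 := lt_of_lt_of_le (by positivity) (okb_iff327.1 hB).r1
  have hu2 : 0 < B.u2 := lt_of_lt_of_le hu1 hB.u12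
  have hb : 0 ≤ bvol (F.s ι) (F.n ι) (i + d) B := W.Cbx.vol_nonneg B _ _ hu1.le hu2.le
  exact mul_le_mul_of_nonneg_right (absorb327 F hK (by norm_num) h2) hb

end asym

end Vale.Agent.P106.R.E
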